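import Vale.Agent.P047.Low

namespace Vale.Agent.P047

open Finset

section
variable {B A : Type*} {r : ℕ}

/-- `x` and `y` agree on block `b` -/
def agree (x y : B × Fin r → A) (b : B) : Prop := ∀ i, x (b, i) = y (b, i)

/-- `x` differs from `y` exactly on the blocks in `Λ` -/
def inBox (y : B × Fin r → A) (Λ : Finset B) (x : B × Fin r → A) : Prop :=
  ∀ b, b ∈ Λ ↔ ¬ agree x y b

open Classical in
lemma low_copy [Fintype B] (y : B × Fin r → A) (Λ : Finset B) :
    (fun x => (if inBox y Λ x then (1 : ℝ) else 0) - (-1) ^ Λ.card * (if x = y then 1 else 0)) ∈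
      Low (B × Fin r) A (Fintype.card (B × Fin r) - r) := by
  induction Λ using Finset.induction_on with
  | empty =>
    refine low_congr low_zero fun x => ?_
    have : inBox y ∅ x ↔ x = y := by
      unfold inBox agree
      constructor
      · intro h
        funext p
        have := h p.1
        simp only [notMem_empty, false_iff, not_not] at this
        exact this p.2
      · rintro rfl; simp
    simp [this]
  | insert b Λ hb ih =>
    have hrest : (fun x : B × Fin r → A =>
        if (∀ b', b' ≠ b → (b' ∈ Λ ↔ ¬ agree x y b')) then (1 : ℝ) else 0) ∈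
        Low (B × Fin r) A (Fintype.card (B × Fin r) - r) := by
      have := low_of_free (A := A) (g := fun x : B × Fin r → A =>
        if (∀ b', b' ≠ b → (b' ∈ Λ ↔ ¬ agree x y b')) then (1 : ℝ) else 0)
        (({b} : Finset B) ×ˢ (univ : Finset (Fin r))) ?_
      · simpa using this
      · intro x x' hxx
        have : ∀ b', b' ≠ b → (agree x y b' ↔ agree x' y b') := by
          intro b' hb'
          unfold agree
          refine forall_congr' fun i => ?_
          rw [hxx (b', i) (by simp [Ne.symm hb'])]
        have e : (∀ b', b' ≠ b → (b' ∈ Λ ↔ ¬ agree x y b')) ↔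
            (∀ b', b' ≠ b → (b' ∈ Λ ↔ ¬ agree x' y b')) :=
          forall_congr' fun b' => forall_congr' fun hb' => by rw [this b' hb']
        simp only [e]
    refine low_congr (low_sub hrest ih) fun x => ?_
    rw [card_insert_of_notMem hb, pow_succ]
    have h1 : inBox y (insert b Λ) x ↔
        (∀ b', b' ≠ b → (b' ∈ Λ ↔ ¬ agree x y b')) ∧ ¬ agree x y b := by
      unfold inBox
      constructor
      · intro h
        refine ⟨fun b' hb' => ?_, (h b).1 (mem_insert_self _ _)⟩
        rw [← h b']; simp [hb']
      · rintro ⟨h, h'⟩ b'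
        by_cases hb' : b' = b
        · subst hb'; simp [h']
        · rw [← h b' hb']; simp [hb']
    have h2 : inBox y Λ x ↔ (∀ b', b' ≠ b → (b' ∈ Λ ↔ ¬ agree x y b')) ∧ agree x y b := by
      unfold inBox
      constructor
      · intro h
        refine ⟨fun b' _ => h b', ?_⟩
        have := h b
        simp only [hb, false_iff, not_not] at this
        exact this
      · rintro ⟨h, h'⟩ b'
        by_cases hb' : b' = b
        · subst hb'; simp [h', hb]
        · exact h b' hb'
    rw [h1, h2]
    by_cases c1 : (∀ b', b' ≠ b → (b' ∈ Λ ↔ ¬ agree x y b')) <;> by_cases c2 : agree x y b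
    all_goals simp only [c1, c2, if_false, not_true, not_false_iff, and_true, and_false]
    all_goals ring

end

/-- a transversal of the pairs of blocks, with an optional extra block -/
def trans {g : ℕ} (τ : Fin g → Bool) (e : Bool) : Finset (Option (Fin g × Bool)) :=
  univ.image (fun i => some (i, τ i)) ∪ (if e then {none} else ∅)

lemma mem_trans {g : ℕ} (τ : Fin g → Bool) (e : Bool) (i : Fin g) (β : Bool) :
    some (i, β) ∈ trans τ e ↔ β = τ i := by
  unfold trans
  cases e <;> simp [eq_comm]

lemma card_trans {g : ℕ} (τ : Fin g → Bool) (e : Bool) :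
    (trans τ e).card = g + (if e then 1 else 0) := by
  unfold trans
  rw [card_union_of_disjoint, card_image_of_injective]
  · cases e <;> simp
  · intro i j h; simp at h; exact h.1
  · cases e <;> simp

lemma select_trans {A ι : Type*} {g r : ℕ} (I : Finset ι) (hI : I.card ≤ 2 ^ g)
    (y : ι → Option (Fin g × Bool) × Fin r → A) :
    ∃ τ : ι → Fin g → Bool, ∀ i ∈ I, ∀ j ∈ I, i ≠ j → ∀ e e' x,
      ¬ (inBox (y i) (trans (τ i) e) x ∧ inBox (y j) (trans (τ j) e') x) := by
  classical
  induction I using Finset.induction_on with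
  | empty => exact ⟨fun _ _ => true, by simp⟩
  | insert a I ha ih =>
    rw [card_insert_of_notMem ha] at hI
    obtain ⟨τ, hτ⟩ := ih (by omega)
    let bad : ι → Finset (Fin g → Bool) := fun j => univ.filter fun τ' =>
      ∃ e e' x, inBox (y a) (trans τ' e) x ∧ inBox (y j) (trans (τ j) e') x
    have hbad : ∀ j, (bad j).card ≤ 1 := by
      intro j
      rw [card_le_one]
      have aux : ∀ τ1 τ2, τ1 ∈ bad j → τ2 ∈ bad j → ∀ i, τ1 i = τ j i → τ2 i = τ j i := by
        intro τ1 τ2 h1 h2 i hi
        by_contra hne
        obtain ⟨e1, e1', x1, p1, q1⟩ := (mem_filter.1 h1).2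
        obtain ⟨e2, e2', x2, p2, q2⟩ := (mem_filter.1 h2).2
        have a1 := p1 (some (i, τ2 i))
        have a2 := q1 (some (i, τ2 i))
        have a3 := p2 (some (i, τ2 i))
        have a4 := q2 (some (i, τ2 i))
        rw [mem_trans] at a1 a2 a3 a4
        rw [hi] at a1
        simp only [hne, false_iff, not_not] at a1 a2 a4
        simp only [true_iff] at a3
        apply a3
        intro l
        rw [a4 l, ← a2 l, a1 l]
      intro τ1 h1 τ2 h2
      funext i
      by_cases c1 : τ1 i = τ j i
      · rw [c1, aux τ1 τ2 h1 h2 i c1]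
      · by_cases c2 : τ2 i = τ j i
        · exact absurd (aux τ2 τ1 h2 h1 i c2) c1
        · revert c1 c2
          cases τ1 i <;> cases τ2 i <;> cases τ j i <;> simp
    have hlt : (I.biUnion bad).card < (univ : Finset (Fin g → Bool)).card := by
      calc (I.biUnion bad).card ≤ ∑ j ∈ I, (bad j).card := card_biUnion_le
        _ ≤ ∑ j ∈ I, 1 := sum_le_sum fun j _ => hbad j
        _ = I.card := by simp
        _ < _ := by simp; omega
    obtain ⟨τ', -, hτ'⟩ := exists_mem_notMem_of_card_lt_card hlt
    have hgood : ∀ j ∈ I, ∀ e e' x,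
        ¬ (inBox (y a) (trans τ' e) x ∧ inBox (y j) (trans (τ j) e') x) := by
      intro j hj e e' x hx
      exact hτ' (mem_biUnion.2 ⟨j, hj, mem_filter.2 ⟨mem_univ _, e, e', x, hx⟩⟩)
    refine ⟨Function.update τ a τ', fun i hi j hj hij e e' x => ?_⟩
    rcases mem_insert.1 hi with rfl | hi' <;> rcases mem_insert.1 hj with rfl | hj'
    · exact absurd rfl hij
    · rw [Function.update_self, Function.update_of_ne (ne_of_mem_of_not_mem hj' ha)]
      exact hgood j hj' e e' x
    · rw [Function.update_self, Function.update_of_ne (ne_of_mem_of_not_mem hi' ha)]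
      exact fun h => hgood i hi' e' e x h.symm
    · rw [Function.update_of_ne (ne_of_mem_of_not_mem hi' ha),
        Function.update_of_ne (ne_of_mem_of_not_mem hj' ha)]
      exact hτ i hi' j hj' hij e e' x

/-- A sparse integer defect can be realised by a genuine colouring, modulo low degree. -/
theorem absorb {A κ : Type*} [Fintype A] [Fintype κ] [DecidableEq κ] {g r : ℕ}
    (z : (Option (Fin g × Bool) × Fin r → A) → κ → ℤ)
    (hz : ∑ x, ∑ k, (z x k).natAbs ≤ 2 ^ g) :
    ∃ F : (Option (Fin g × Bool) × Fin r → A) → Option κ, ∀ k,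
      (fun x => (if F x = some k then (1 : ℝ) else 0) - z x k) ∈
        Low (Option (Fin g × Bool) × Fin r) A (Fintype.card (Option (Fin g × Bool) × Fin r) - r) := by
  classical
  let I : Finset (Σ _ : (Option (Fin g × Bool) × Fin r → A) × κ, ℕ) :=
    (univ : Finset ((Option (Fin g × Bool) × Fin r → A) × κ)).sigma
      fun p => range (z p.1 p.2).natAbs
  have hI : I.card ≤ 2 ^ g := by
    rw [card_sigma, Fintype.sum_prod_type]
    simpa using hz
  obtain ⟨τ, hτ⟩ := select_trans I hI (fun t => t.1.1)
  let e : (Σ _ : (Option (Fin g × Bool) × Fin r → A) × κ, ℕ) → Bool := fun t =>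
    decide ((-1 : ℝ) ^ g ≠ ((z t.1.1 t.1.2).sign : ℝ))
  have hsign : ∀ t ∈ I, (-1 : ℝ) ^ (trans (τ t) (e t)).card = ((z t.1.1 t.1.2).sign : ℝ) := by
    intro t ht
    have hne : z t.1.1 t.1.2 ≠ 0 := by
      intro h0
      have := (mem_sigma.1 ht).2
      simp [h0] at this
    rw [card_trans]
    by_cases hc : (-1 : ℝ) ^ g = ((z t.1.1 t.1.2).sign : ℝ)
    · simp [e, hc]
    · simp only [e, hc, ne_eq, not_false_eq_true, decide_true, if_true, pow_succ]
      rcases neg_one_pow_eq_or ℝ g with h1 | h1 <;>
        rcases lt_or_gt_of_ne hne with h2 | h2 <;>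
        simp_all [Int.sign_eq_neg_one_of_neg, Int.sign_eq_one_of_pos]
  let bx := fun (t : Σ _ : (Option (Fin g × Bool) × Fin r → A) × κ, ℕ) x =>
    inBox t.1.1 (trans (τ t) (e t)) x
  let F : (Option (Fin g × Bool) × Fin r → A) → Option κ := fun x =>
    if h : ∃ t ∈ I, bx t x then some h.choose.1.2 else none
  refine ⟨F, fun k => ?_⟩
  have hlow := low_sum (I.filter fun t => t.1.2 = k)
    (fun t _ => low_copy (A := A) t.1.1 (trans (τ t) (e t)))
  refine low_congr hlow fun x => ?_
  rw [sum_sub_distrib]
  congr 1
  · by_cases h : ∃ t ∈ I, bx t x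
    · have hs := h.choose_spec
      have hF : F x = some h.choose.1.2 := dif_pos h
      rw [hF]
      by_cases hk : h.choose.1.2 = k
      · rw [if_pos (by rw [hk]), sum_eq_single h.choose]
        · exact (if_pos hs.2).symm
        · intro t ht hne
          exact if_neg fun hb => hτ t (mem_filter.1 ht).1 _ hs.1 hne _ _ x ⟨hb, hs.2⟩
        · intro hn
          exact absurd (mem_filter.2 ⟨hs.1, hk⟩) hn
      · rw [if_neg (by simpa using hk)]
        symm
        refine sum_eq_zero fun t ht => if_neg fun hb => ?_
        have hne : t ≠ h.choose := by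
          intro he
          apply hk
          rw [← he]; exact (mem_filter.1 ht).2
        exact hτ t (mem_filter.1 ht).1 _ hs.1 hne _ _ x ⟨hb, hs.2⟩
    · have hF : F x = none := dif_neg h
      rw [hF, if_neg (by simp)]
      symm
      exact sum_eq_zero fun t ht => if_neg fun hb => h ⟨t, (mem_filter.1 ht).1, hb⟩
  · rw [sum_congr rfl fun t ht => by rw [hsign t (mem_filter.1 ht).1], sum_filter, sum_sigma,
      Fintype.sum_prod_type, sum_eq_single x]
    · rw [sum_eq_single k]
      · simp only [if_true, mul_one, sum_const, card_range, nsmul_eq_mul]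
        have := Int.sign_mul_natAbs (z x k)
        rw [mul_comm]
        have h2 := congrArg (fun t : ℤ => (t : ℝ)) this
        simp only [Int.cast_mul, Int.cast_natCast] at h2
        exact h2.symm
      · intro k' _ hk'; simp [hk']
      · simp
    · intro x' _ hx'
      simp [Ne.symm hx']
    · simp

end Vale.Agent.P047
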