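import Vale.Agent.P047.Iterate

namespace Vale.Agent.P047

open Finset Real

/-- a Boolean function of degree at most `D`, mean `M` and linear sum `S` -/
def BF (M S : ℝ) (D : ℕ) : Prop :=
  ∃ (ι : Type) (_ : Fintype ι) (_ : DecidableEq ι) (σ : (ι → Bool) → Bool),
    (fun z => sg (σ z)) ∈ Low ι Bool D ∧ Ex ι half (fun z => sg (σ z)) = M ∧
    Ex ι half (fun z => sg (σ z) * ∑ i, sg (z i)) = S

lemma sg_eq (b : Bool) : sg b = (if b = true then 1 else 0) - (if b = false then 1 else 0) := by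
  cases b <;> simp [sg]

lemma ind_eq (a b : Bool) : (if b = a then (1 : ℝ) else 0) = 1 / 2 + (sg a / 2) * sg b := by
  cases a <;> cases b <;> simp [sg] <;> norm_num

lemma bf_of_src {μ m : Bool → ℝ} {D : ℕ} (h : Src Bool μ m D) :
    BF (∑ a, μ a * sg a) (∑ a, μ a * m a * sg a) D := by
  obtain ⟨ι, i1, i2, σ, h1, h2, h3⟩ := h
  refine ⟨ι, i1, i2, σ, low_congr (low_sub (h1 true) (h1 false)) fun z => sg_eq _, ?_, ?_⟩
  · rw [Ex_congr half (fun z => sg_eq (σ z)), Ex_sub, h2, h2]
    simp [sg]; ring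
  · have : ∀ z : ι → Bool, sg (σ z) * ∑ i, sg (z i) =
        (if σ z = true then ∑ i, sg (z i) else 0) - (if σ z = false then ∑ i, sg (z i) else 0) := by
      intro z
      cases σ z <;> simp [sg]
    rw [Ex_congr half this, Ex_sub, h3, h3]
    simp [sg]; ring

lemma bal_of_bf {S : ℝ} {D : ℕ} (h : BF 0 S D) : Bal S D := by
  obtain ⟨ι, i1, i2, σ, h1, h2, h3⟩ := h
  refine ⟨ι, i1, i2, σ, fun a => ?_, fun a => ?_, fun a => ?_⟩
  · exact low_congr (low_add (low_const (1 / 2)) (low_smul (sg a / 2) h1)) fun z => ind_eq _ _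
  · rw [Ex_congr half (fun z => ind_eq a (σ z)), Ex_add, Ex_smul, h2, Ex_const sum_half]
    simp [half]
  · have : ∀ z : ι → Bool, (if σ z = a then ∑ i, sg (z i) else 0) =
        (1 / 2) * ∑ i, sg (z i) + (sg a / 2) * (sg (σ z) * ∑ i, sg (z i)) := by
      intro z
      have := ind_eq a (σ z)
      split_ifs at this ⊢ with h
      · linear_combination (∑ i, sg (z i)) * this
      · linear_combination (∑ i, sg (z i)) * this
    rw [Ex_congr half this, Ex_add, Ex_smul, Ex_smul, h3, Ex_sum_coord sum_half]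
    cases a <;> simp [half, sg] <;> ring

lemma bool_src (ρ : ℝ) (hρ : 0 < ρ) : ∃ (M S : ℝ) (D : ℕ), 0 < D ∧ 0 ≤ S ∧ BF M S D ∧ ρ * D ≤ S ^ 2 := by
  obtain ⟨A, j1, j2, μ, m, D, hD, hS, hV⟩ := good_all (640000 * ρ)
  obtain ⟨K, hK⟩ : ∃ K : ℕ, K = 10 ^ 34 := ⟨_, rfl⟩
  have hDR : (0 : ℝ) < D := by exact_mod_cast hD
  have hV0 : 0 < ∑ a, μ a * m a ^ 2 := lt_of_lt_of_le (by positivity) hV
  obtain ⟨n', μ', m', v, U, hn', hU, hS', hv, herr, hVU⟩ :=
    quant hS hV0 K (by rw [hK]; norm_num) 200 (by norm_num)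
  have hn'R : (0 : ℝ) < n' := by exact_mod_cast hn'
  have hU0 : 0 < U := by rw [hU]; positivity
  have hδ := mul_le_mul_of_nonneg_right (delta_le K hK) hU0.le
  have hΛ : 0 < 200 * √U := by positivity
  have hv1 : ∀ k, |v k| ≤ 200 * √U := by
    intro k
    apply abs_le_of_sq_le_sq' _ hΛ.le |> abs_le.2
    rw [mul_pow, sq_sqrt hU0.le]; exact hv k
  let s : Fin K → Bool := fun k => decide (0 ≤ m' k)
  have hs : ∀ k, sg (s k) * m' k = |m' k| := by
    intro k
    by_cases h : 0 ≤ m' k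
    · simp [s, sg, h, abs_of_nonneg h]
    · simp [s, sg, h, abs_of_neg (not_le.1 h)]
  let F : (Unit → Fin K) → Bool := fun x => s (x ())
  have hF : ∀ a, (fun x => if F x = a then (1 : ℝ) else 0) ∈ Low Unit (Fin K) 1 := fun a =>
    low_coord le_rfl () (fun k => if s k = a then (1 : ℝ) else 0)
  have hB := bf_of_src (hS'.comp F hF)
  rw [← Ex_push' hS'.nonneg m' F sg] at hB
  have e : Ex Unit μ' (fun x => sg (F x) * ∑ j, m' (x j)) = ∑ k, μ' k * |m' k| := by
    rw [← Ex_coord hS'.sum_one () (fun k => |m' k|)]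
    refine Ex_congr μ' fun x => ?_
    simp only [F, univ_unique, sum_singleton]
    exact hs _
  rw [e] at hB
  set S := ∑ k, μ' k * |m' k| with hSdef
  have hS0 : 0 ≤ S := sum_nonneg fun k _ => mul_nonneg (hS'.nonneg k) (abs_nonneg _)
  refine ⟨_, S, _, by positivity, hS0, hB, ?_⟩
  have h1 : ∑ k, μ' k * m' k ^ 2 ≤ 2 * (200 * √U) * S + ∑ k, μ' k * (v k - m' k) ^ 2 := by
    rw [hSdef, mul_sum, ← sum_add_distrib]
    refine sum_le_sum fun k _ => ?_
    have a1 : m' k * v k ≤ |m' k| * (200 * √U) := by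
      calc m' k * v k ≤ |m' k * v k| := le_abs_self _
        _ = |m' k| * |v k| := abs_mul _ _
        _ ≤ _ := mul_le_mul_of_nonneg_left (hv1 k) (abs_nonneg _)
    have a2 : m' k ^ 2 ≤ 2 * (200 * √U) * |m' k| + (v k - m' k) ^ 2 := by
      nlinarith [sq_nonneg (v k - 2 * m' k), sq_nonneg (v k)]
    nlinarith [mul_le_mul_of_nonneg_left a2 (hS'.nonneg k)]
  have h2 : U / 2 ≤ 400 * √U * S := by linarith
  have hsq : 0 < √U := sqrt_pos.2 hU0
  have h3 : √U ≤ 800 * S := by
    have : √U * √U ≤ √U * (800 * S) := by rw [mul_self_sqrt hU0.le]; linarith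
    exact le_of_mul_le_mul_left this hsq
  have h4 : U ≤ 640000 * S ^ 2 := by
    have := mul_self_sqrt hU0.le
    nlinarith
  have h5 : 640000 * ρ * (n' * D) ≤ U := by rw [hU]; nlinarith
  push_cast
  nlinarith

lemma Ex_neg {ι : Type} [Fintype ι] [DecidableEq ι] (G : (ι → Bool) → ℝ) :
    Ex ι half (fun z => G (fun i => !z i)) = Ex ι half G := by
  unfold Ex
  refine Fintype.sum_equiv (Function.Involutive.toPerm (fun (z : ι → Bool) i => !z i)
    (fun z => by ext i; simp)) _ _ fun z => ?_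
  simp [pw, half]
  rfl

lemma sg_not (b : Bool) : sg (!b) = - sg b := by cases b <;> simp [sg]

lemma balance {M S : ℝ} {D : ℕ} (h : BF M S D) : BF 0 (S + M) (1 + D) := by
  obtain ⟨ι, i1, i2, σ, h1, h2, h3⟩ := h
  let τ : (Unit → Bool) → (ι → Bool) → Bool := fun y x => if y () then σ x else !σ (fun i => !x i)
  have hsum : ∀ G : (Unit → Bool) → (ι → Bool) → ℝ,
      Ex (Unit ⊕ ι) half (fun x => G (fun j => x (Sum.inl j)) (fun j => x (Sum.inr j))) =
        (1 / 2) * Ex ι half (G fun _ => true) + (1 / 2) * Ex ι half (G fun _ => false) := by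
    intro G
    rw [Ex_sumType, ← (Equiv.funUnique Unit Bool).symm.sum_comp]
    simp only [Fintype.sum_bool, Ex, mul_sum]
    congr 1
    · refine sum_congr rfl fun x _ => ?_
      have : pw half ((Equiv.funUnique Unit Bool).symm true) = 1 / 2 := by simp [pw, half]
      rw [this, mul_assoc]; rfl
    · refine sum_congr rfl fun x _ => ?_
      have : pw half ((Equiv.funUnique Unit Bool).symm false) = 1 / 2 := by simp [pw, half]
      rw [this, mul_assoc]; rfl
  refine ⟨Unit ⊕ ι, inferInstance, inferInstance,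
    fun z => τ (fun j => z (Sum.inl j)) (fun j => z (Sum.inr j)), ?_, ?_, ?_⟩
  · have a1 := low_mul (low_coord (J := Unit ⊕ ι) le_rfl (Sum.inl ())
      (fun b : Bool => if b then (1 : ℝ) else 0)) (low_comp Sum.inr h1)
    have a2 := low_mul (low_coord (J := Unit ⊕ ι) le_rfl (Sum.inl ())
      (fun b : Bool => if b then (0 : ℝ) else -1)) (low_comp Sum.inr (low_map (fun b => !b) h1))
    refine low_congr (low_add a1 a2) fun z => ?_
    simp only [τ]
    cases z (Sum.inl ()) <;> simp [sg_not]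
  · rw [hsum (fun y x => sg (τ y x))]
    have : Ex ι half (fun x => sg (τ (fun _ => false) x)) = - M := by
      rw [← h2, ← Ex_neg (fun z => sg (σ z)), ← neg_one_mul, ← Ex_smul]
      exact Ex_congr half fun x => by simp [τ, sg_not]
    rw [this]
    have : Ex ι half (fun x => sg (τ (fun _ => true) x)) = M := by
      rw [← h2]
      exact Ex_congr half fun x => by simp [τ]
    rw [this]; ring
  · have e : ∀ z : Unit ⊕ ι → Bool, ∑ i, sg (z i) = sg (z (Sum.inl ())) + ∑ i, sg (z (Sum.inr i)) := by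
      intro z; simp [Fintype.sum_sum_type]
    simp only [e]
    rw [hsum (fun y x => sg (τ y x) * (sg (y ()) + ∑ i, sg (x i)))]
    have : Ex ι half (fun x => sg (τ (fun _ => false) x) * (sg false + ∑ i, sg (x i))) = S + M := by
      rw [← h2, ← h3, ← Ex_add, ← Ex_neg (fun z => sg (σ z) * ∑ i, sg (z i) + sg (σ z))]
      refine Ex_congr half fun x => ?_
      simp only [τ, sg_not, sum_neg_distrib]
      simp [sg_not, show sg false = -1 from by simp [sg]]
      ring
    rw [this]
    have : Ex ι half (fun x => sg (τ (fun _ => true) x) * (sg true + ∑ i, sg (x i))) = S + M := by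
      rw [← h2, ← h3, ← Ex_add]
      refine Ex_congr half fun x => ?_
      simp [τ, show sg true = 1 from by simp [sg]]
      ring
    rw [this]; ring

lemma BF.mean_ge {M S : ℝ} {D : ℕ} (h : BF M S D) : -1 ≤ M := by
  obtain ⟨ι, i1, i2, σ, -, h2, -⟩ := h
  rw [← h2, ← Ex_const (J := ι) sum_half (-1)]
  exact Ex_mono half_nonneg fun z => by cases σ z <;> simp [sg]

lemma bal_mul {S1 S2 : ℝ} {D1 D2 : ℕ} (h1 : Bal S1 D1) (h2 : Bal S2 D2) :
    Bal (S2 * S1) (D2 * D1) := by
  obtain ⟨ι, i1, i2, σ, g1, g2, g3⟩ := h2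
  have h := Src.comp h1 σ g1
  have e1 : pmu half σ = half := funext g2
  have e2 : pm half (fun b => S1 * sg b) σ = fun b => S2 * S1 * sg b := by
    funext a
    unfold pm
    have : ∀ x : ι → Bool, (if σ x = a then ∑ j, S1 * sg (x j) else 0) =
        S1 * (if σ x = a then ∑ j, sg (x j) else 0) := by
      intro x; split_ifs <;> simp [mul_sum]
    rw [Ex_congr half this, Ex_smul, g3, e1]
    simp [half]; ring
  rw [e1, e2] at h
  exact h

lemma bal_pow {S : ℝ} {D : ℕ} (h : Bal S D) (k : ℕ) : Bal (S ^ k) (D ^ k) := by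
  induction k with
  | zero => simpa using bal_one
  | succ k ih => rw [pow_succ, pow_succ]; exact bal_mul h ih

lemma bal_seed : ∃ (S : ℝ) (D : ℕ), 2 ≤ D ∧ 0 < S ∧ (D : ℝ) < S ^ 2 ∧ Bal S D := by
  obtain ⟨M, S, D, hD, hS, hB, h⟩ := bool_src 16 (by norm_num)
  have hM := hB.mean_ge
  have hD1 : (1 : ℝ) ≤ D := by exact_mod_cast hD
  have hS4 : 4 ≤ S := by nlinarith
  refine ⟨S + M, 1 + D, by omega, by linarith, ?_, bal_of_bf (balance hB)⟩
  push_cast
  nlinarith

theorem main : ∃ ε : ℝ, 0 < ε ∧ ∃ c : ℝ, 0 < c ∧ ∀ d : ℕ, 1 ≤ d → ∃ n : ℕ, 1 ≤ n ∧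
    ∃ σ : (Fin n → Bool) → Bool, (fun x => sg (σ x)) ∈ Low (Fin n) Bool d ∧
      c * (d : ℝ) ^ (1 / 2 + ε) ≤ Ex (Fin n) half (fun x => sg (σ x) * ∑ i, sg (x i)) := by
  obtain ⟨S, D, hD, hS, hSD, hB⟩ := bal_seed
  have hDR : (2 : ℝ) ≤ D := by exact_mod_cast hD
  have hlog : 0 < log D := log_pos (by linarith)
  have hα : 1 / 2 < log S / log D := by
    rw [lt_div_iff₀ hlog]
    have := log_lt_log (by linarith) hSD
    rw [log_pow] at this
    push_cast at this
    linarith
  have hSα : (D : ℝ) ^ (log S / log D) = S := by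
    rw [rpow_def_of_pos (by linarith), mul_div_cancel₀ _ hlog.ne', exp_log hS]
  refine ⟨log S / log D - 1 / 2, by linarith, 1 / S, by positivity, fun d hd => ?_⟩
  have hk1 : D ^ Nat.log D d ≤ d := Nat.pow_log_le_self D (by omega)
  have hk2 : d < D ^ (Nat.log D d + 1) := Nat.lt_pow_succ_log_self (by omega) d
  set k := Nat.log D d
  have hle : 1 / S * (d : ℝ) ^ (1 / 2 + (log S / log D - 1 / 2)) ≤ S ^ k := by
    rw [show 1 / 2 + (log S / log D - 1 / 2) = log S / log D by ring]
    have a1 : (d : ℝ) ≤ (D : ℝ) ^ (k + 1) := by exact_mod_cast hk2.le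
    have a2 := rpow_le_rpow (Nat.cast_nonneg d) a1 (by linarith : 0 ≤ log S / log D)
    rw [← rpow_natCast, ← rpow_mul (by linarith), mul_comm, rpow_mul (by linarith), hSα,
      rpow_natCast, pow_succ] at a2
    rw [one_div, inv_mul_le_iff₀ hS]
    linarith
  obtain ⟨ι, i1, i2, σ, g1, -, g3⟩ := bf_of_src (Src.mono (bal_pow hB k) hk1)
  have e3 : ∑ a, half a * (S ^ k * sg a) * sg a = S ^ k := by simp [half, sg]; ring
  rw [e3] at g3
  let e := Fintype.equivFin ι
  have hEx : Ex (Fin (Fintype.card ι)) half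
      (fun x => sg (σ (fun i => x (e i))) * ∑ i, sg (x i)) = S ^ k := by
    rw [← g3]
    unfold Ex
    refine Fintype.sum_equiv (Equiv.arrowCongr e.symm (Equiv.refl Bool)) _ _ fun x => ?_
    have a1 : ∑ i, sg (x i) = ∑ i, sg (x (e i)) := (e.sum_comp (fun i => sg (x i))).symm
    have a2 : pw half x = pw half (fun i => x (e i)) := (e.prod_comp (fun i => half (x i))).symm
    beta_reduce
    rw [a1, a2]
    rfl
  refine ⟨Fintype.card ι, ?_, fun x => σ (fun i => x (e i)), low_comp e g1, by rw [hEx]; exact hle⟩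
  by_contra h0
  have : IsEmpty ι := Fintype.card_eq_zero_iff.1 (by omega)
  have hpos : 0 < S ^ k := by positivity
  rw [← g3] at hpos
  simp [Ex] at hpos

lemma low_fourier {ι : Type} [Fintype ι] [DecidableEq ι] {d : ℕ} {g : (ι → Bool) → ℝ}
    (hg : g ∈ Low ι Bool d) (T : Finset ι) (hT : d < T.card) :
    ∑ x, g x * ∏ i ∈ T, sg (x i) = 0 := by
  refine low_induction (P := fun g => ∑ x, g x * ∏ i ∈ T, sg (x i) = 0) ?_ ?_ ?_ ?_ hg
  · intro g S hS h
    obtain ⟨j, hjT, hjS⟩ : ∃ j, j ∈ T ∧ j ∉ S := by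
      by_contra hcon
      push Not at hcon
      have := card_le_card (show T ⊆ S from hcon)
      omega
    refine sum_involution (fun x _ => Function.update x j (!x j)) ?_ ?_ (fun _ _ => mem_univ _) ?_
    · intro x _
      have a1 : g (Function.update x j (!x j)) = g x := h _ _ fun i hi => by
        rw [Function.update_of_ne (by rintro rfl; exact hjS hi)]
      have a2 : ∏ i ∈ T, sg (Function.update x j (!x j) i) = - ∏ i ∈ T, sg (x i) := by
        rw [← mul_prod_erase T _ hjT, ← mul_prod_erase T (fun i => sg (x i)) hjT,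
          Function.update_self, sg_not, neg_mul]
        congr 2
        exact prod_congr rfl fun i hi => by rw [Function.update_of_ne (ne_of_mem_erase hi)]
      rw [a1, a2]; ring
    · intro x _ _ hx
      have := congrFun hx j
      simp at this
    · intro x _
      simp
  · simp
  · intro f g hf hg
    simp only [add_mul, sum_add_distrib, hf, hg, add_zero]
  · intro c f hf
    simp only [mul_assoc, ← mul_sum, hf, mul_zero]

end Vale.Agent.P047
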