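import Vale.Agent.P047.Low

namespace Vale.Agent.P047

open Finset Real

/-- squared modulus of a trigonometric polynomial with real coefficients -/
noncomputable def Jf (a : ℕ → ℝ) (n : ℕ) (φ : ℝ) : ℝ :=
  (∑ j ∈ range n, a j * cos (j * φ)) ^ 2 + (∑ j ∈ range n, a j * sin (j * φ)) ^ 2

lemma Jf_nonneg (a : ℕ → ℝ) (n : ℕ) (φ : ℝ) : 0 ≤ Jf a n φ := by unfold Jf; positivity

lemma Jf_eq (a : ℕ → ℝ) (n : ℕ) (φ : ℝ) :
    Jf a n φ = ∑ j ∈ range n, ∑ l ∈ range n, a j * a l * cos (((j : ℝ) - l) * φ) := by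
  unfold Jf
  rw [sq, sq, sum_mul_sum, sum_mul_sum, ← sum_add_distrib]
  refine sum_congr rfl fun j _ => ?_
  rw [← sum_add_distrib]
  refine sum_congr rfl fun l _ => ?_
  rw [sub_mul, cos_sub]; ring

lemma sum_cos_zero (M : ℕ) (d : ℤ) (hd0 : d ≠ 0) (hd : |d| < M) (c : ℝ) :
    ∑ k ∈ range M, cos ((d : ℝ) * (2 * π * k / M + c)) = 0 := by
  have hM : (0 : ℝ) < M := by
    have : (0 : ℤ) < M := lt_of_le_of_lt (abs_nonneg d) hd
    exact_mod_cast this
  set α : ℝ := π * d / M with hα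
  have hdR : |(d : ℝ)| < M := by exact_mod_cast hd
  have hs : sin α ≠ 0 := by
    intro h
    rw [sin_eq_zero_iff_of_lt_of_lt] at h
    · rw [hα] at h
      have : (d : ℝ) = 0 := by
        have h2 := pi_pos
        field_simp at h
        simpa using h
      exact hd0 (by exact_mod_cast this)
    · rw [hα, lt_div_iff₀ hM]
      have := (abs_lt.1 hdR).1
      nlinarith [pi_pos]
    · rw [hα, div_lt_iff₀ hM]
      have := (abs_lt.1 hdR).2
      nlinarith [pi_pos]
  have key : ∀ n : ℕ, 2 * sin α * ∑ k ∈ range n, cos ((d : ℝ) * (2 * π * k / M + c))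
      = sin ((2 * n - 1) * α + d * c) - sin (-α + d * c) := by
    intro n
    induction n with
    | zero => simp
    | succ n ih =>
      rw [sum_range_succ, mul_add, ih]
      have e1 : (d : ℝ) * (2 * π * n / M + c) = 2 * n * α + d * c := by
        rw [hα]; field_simp
      have e2 : (2 * ((n + 1 : ℕ) : ℝ) - 1) * α + d * c = (2 * n * α + d * c) + α := by
        push_cast; ring
      have e3 : (2 * (n : ℝ) - 1) * α + d * c = (2 * n * α + d * c) - α := by ring
      rw [e1, e2, e3, sin_add (2 * n * α + d * c) α, sin_sub (2 * n * α + d * c) α]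
      ring
  have h := key M
  have e : (2 * (M : ℝ) - 1) * α + d * c = (-α + d * c) + d * (2 * π) := by
    rw [hα]; field_simp; ring
  rw [e, sin_add_int_mul_two_pi, sub_self] at h
  rcases mul_eq_zero.1 h with h | h
  · exact absurd (by linarith : sin α = 0) hs
  · exact h

lemma sum_Jf (a : ℕ → ℝ) (n M : ℕ) (hn : n ≤ M) (c : ℝ) :
    ∑ k ∈ range M, Jf a n (2 * π * k / M + c) = M * ∑ j ∈ range n, a j ^ 2 := by
  simp only [Jf_eq]
  rw [sum_comm, mul_sum]
  refine sum_congr rfl fun j hj => ?_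
  rw [sum_comm, sum_eq_single j]
  · simp [sq]
  · intro l hl hlj
    rw [← mul_sum]
    have := sum_cos_zero M ((j : ℤ) - l) (by omega)
      (by have := mem_range.1 hj; have := mem_range.1 hl; rw [abs_lt]; omega) c
    push_cast at this
    rw [this, mul_zero]
  · intro h; exact absurd hj h

lemma Jf_mul (a : ℕ → ℝ) (n : ℕ) (han : a n = 0) (b : ℕ → ℝ) (hb0 : b 0 = a 0)
    (hb : ∀ j, b (j + 1) = a (j + 1) - a j) (φ : ℝ) :
    Jf a n φ * (2 - 2 * cos φ) = Jf b (n + 1) φ := by
  unfold Jf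
  set C := ∑ j ∈ range n, a j * cos (j * φ) with hC
  set S := ∑ j ∈ range n, a j * sin (j * φ) with hS
  have h1 : ∑ j ∈ range (n + 1), b j * cos (j * φ) = C - (C * cos φ - S * sin φ) := by
    have e1 : ∑ j ∈ range (n + 1), a j * cos (j * φ) = C := by
      rw [sum_range_succ, han, zero_mul, add_zero]
    rw [sum_range_succ'] at e1 ⊢
    have e0 : C * cos φ - S * sin φ =
        ∑ j ∈ range n, (a j * cos (j * φ) * cos φ - a j * sin (j * φ) * sin φ) := by
      rw [hC, hS, sum_mul, sum_mul, ← sum_sub_distrib]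
    rw [e0, ← e1, hb0]
    have : ∑ j ∈ range n, b (j + 1) * cos (((j + 1 : ℕ) : ℝ) * φ) =
        ∑ j ∈ range n, a (j + 1) * cos (((j + 1 : ℕ) : ℝ) * φ) -
          ∑ j ∈ range n, (a j * cos (j * φ) * cos φ - a j * sin (j * φ) * sin φ) := by
      rw [← sum_sub_distrib]
      refine sum_congr rfl fun j _ => ?_
      rw [hb]
      have : ((j + 1 : ℕ) : ℝ) * φ = j * φ + φ := by push_cast; ring
      rw [this, cos_add]; ring
    rw [this]; ring
  have h2 : ∑ j ∈ range (n + 1), b j * sin (j * φ) = S - (S * cos φ + C * sin φ) := by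
    have e1 : ∑ j ∈ range (n + 1), a j * sin (j * φ) = S := by
      rw [sum_range_succ, han, zero_mul, add_zero]
    rw [sum_range_succ'] at e1 ⊢
    have e0 : S * cos φ + C * sin φ =
        ∑ j ∈ range n, (a j * sin (j * φ) * cos φ + a j * cos (j * φ) * sin φ) := by
      rw [hC, hS, sum_mul, sum_mul, ← sum_add_distrib]
    rw [e0, ← e1, hb0]
    have : ∑ j ∈ range n, b (j + 1) * sin (((j + 1 : ℕ) : ℝ) * φ) =
        ∑ j ∈ range n, a (j + 1) * sin (((j + 1 : ℕ) : ℝ) * φ) -
          ∑ j ∈ range n, (a j * sin (j * φ) * cos φ + a j * cos (j * φ) * sin φ) := by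
      rw [← sum_sub_distrib]
      refine sum_congr rfl fun j _ => ?_
      rw [hb]
      have : ((j + 1 : ℕ) : ℝ) * φ = j * φ + φ := by push_cast; ring
      rw [this, sin_add]; ring
    rw [this]; ring
  rw [h1, h2]
  have := sin_sq_add_cos_sq φ
  linear_combination (-(C ^ 2 + S ^ 2)) * this

lemma low_cos {J A : Type*} {s : (J → A) → ℝ} (hs : s ∈ Low J A 1) (hs1 : ∀ x, |s x| ≤ 1)
    (n : ℕ) : (fun x => cos (n * arccos (s x))) ∈ Low J A n := by
  have hc : ∀ x, cos (arccos (s x)) = s x := fun x =>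
    cos_arccos (abs_le.1 (hs1 x)).1 (abs_le.1 (hs1 x)).2
  induction n using Nat.strong_induction_on with
  | _ n ih =>
    match n, ih with
    | 0, _ => exact low_congr (low_const 1) (by simp)
    | 1, _ => exact low_congr hs (fun x => by simp [hc])
    | n + 2, ih =>
      have h1 := low_smul 2 (low_mul hs (ih (n + 1) (by omega)))
      have h2 := low_mono (show n ≤ 1 + (n + 1) by omega) (ih n (by omega))
      refine low_congr (low_mono (by omega) (low_sub h1 h2)) ?_
      intro x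
      set θ := arccos (s x)
      have e1 : ((n + 2 : ℕ) : ℝ) * θ = ((n + 1 : ℕ) : ℝ) * θ + θ := by push_cast; ring
      have e2 : (n : ℝ) * θ = ((n + 1 : ℕ) : ℝ) * θ - θ := by push_cast; ring
      rw [e1, e2, cos_add, cos_sub, hc x]; ring

lemma sum_a_sq (N : ℝ) (n : ℕ) : ∑ j ∈ range n, (((j : ℝ) + 1) * (N - 1 - j)) ^ 2 =
    N ^ 2 * (n * (n + 1) * (2 * n + 1) / 6) - 2 * N * (n * (n + 1) / 2) ^ 2
      + n * (n + 1) * (2 * n + 1) * (3 * n ^ 2 + 3 * n - 1) / 30 := by
  induction n with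
  | zero => simp
  | succ n ih => rw [sum_range_succ, ih]; push_cast; ring

lemma sum_b_sq (N : ℝ) (n : ℕ) : ∑ j ∈ range n, (N - 1 - 2 * (j : ℝ)) ^ 2 =
    n * (N - 1) ^ 2 - 2 * (N - 1) * (n * (n - 1)) + 4 * ((n - 1) * n * (2 * n - 1) / 6) := by
  induction n with
  | zero => simp
  | succ n ih => rw [sum_range_succ, ih]; push_cast; ring

/-- A positive partition of unity on `[-1,1]` by polynomials of degree at most `m` which
localises the argument up to mean square error `10 / (m+2)^2`. -/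
theorem kernel (m : ℕ) : ∃ (W : Fin (m + 2) → ℝ → ℝ) (t : Fin (m + 2) → ℝ),
    (∀ k, |t k| ≤ 1) ∧ (∀ k u, 0 ≤ W k u) ∧ (∀ u, ∑ k, W k u = 1) ∧
    (∀ u, |u| ≤ 1 → ∑ k, W k u * (t k - u) ^ 2 ≤ 10 / ((m : ℝ) + 2) ^ 2) ∧
    (∀ k (J A : Type) (s : (J → A) → ℝ), s ∈ Low J A 1 → (∀ x, |s x| ≤ 1) →
      (fun x => W k (s x)) ∈ Low J A m) := by
  set N : ℝ := (m : ℝ) + 2 with hN
  set a : ℕ → ℝ := fun j => ((j : ℝ) + 1) * (N - 1 - j) with ha
  set b : ℕ → ℝ := fun j => N - 1 - 2 * (j : ℝ) with hb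
  have hNm : ((m + 2 : ℕ) : ℝ) = N := by push_cast; rfl
  have hN2 : 2 ≤ N := by rw [hN]; have : (0 : ℝ) ≤ m := Nat.cast_nonneg m; linarith
  have hA : ∑ j ∈ range (m + 1), a j ^ 2 = N * (N ^ 4 - 1) / 30 := by
    rw [ha]; simp only
    rw [sum_a_sq]; push_cast; rw [hN]; ring
  have hB : ∑ j ∈ range (m + 2), b j ^ 2 = N * (N ^ 2 - 1) / 3 := by
    rw [hb]; simp only
    rw [sum_b_sq]; push_cast; rw [hN]; ring
  have hN4 : 0 < N ^ 4 - 1 := by nlinarith [sq_nonneg (N ^ 2 - 4), sq_nonneg N]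
  have hApos : 0 < N * (N ^ 4 - 1) / 30 := by positivity
  set θ : ℕ → ℝ := fun k => 2 * π * k / ((m + 2 : ℕ) : ℝ) with hθ
  set Z : ℝ := 2 * N * (N * (N ^ 4 - 1) / 30) with hZ
  have hZpos : 0 < Z := by positivity
  refine ⟨fun k u => (Jf a (m + 1) (θ k + -arccos u) + Jf a (m + 1) (θ k + arccos u)) / Z,
    fun k => cos (θ k), fun k => abs_cos_le_one _, fun k u => ?_, fun u => ?_, fun u hu => ?_,
    fun k J A s hs hs1 => ?_⟩
  · have := Jf_nonneg a (m + 1) (θ k + -arccos u)
    have := Jf_nonneg a (m + 1) (θ k + arccos u)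
    positivity
  · rw [Fin.sum_univ_eq_sum_range (fun k => (Jf a (m + 1) (θ k + -arccos u) +
      Jf a (m + 1) (θ k + arccos u)) / Z), ← sum_div, sum_add_distrib]
    rw [sum_Jf a (m + 1) (m + 2) (by omega), sum_Jf a (m + 1) (m + 2) (by omega), hA, hNm, hZ]
    field_simp; ring
  · have hc : cos (arccos u) = u := cos_arccos (abs_le.1 hu).1 (abs_le.1 hu).2
    have hJ : ∀ φ, Jf a (m + 1) φ * (2 - 2 * cos φ) = Jf b (m + 2) φ := by
      intro φ
      refine Jf_mul a (m + 1) ?_ b ?_ ?_ φ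
      · simp only [ha, hN]; push_cast; ring
      · simp [ha, hb]
      · intro j; simp only [ha, hb]; push_cast; ring
    have hle : ∀ k : ℕ, (Jf a (m + 1) (θ k + -arccos u) + Jf a (m + 1) (θ k + arccos u)) / Z *
        (cos (θ k) - u) ^ 2 ≤
        (Jf b (m + 2) (θ k + -arccos u) + Jf b (m + 2) (θ k + arccos u)) / Z := by
      intro k
      rw [div_mul_eq_mul_div]
      refine div_le_div_of_nonneg_right ?_ hZpos.le
      rw [← hJ, ← hJ, add_mul]
      have h1 : (cos (θ k) - u) ^ 2 ≤ 2 - 2 * cos (θ k + -arccos u) := by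
        rw [cos_add, cos_neg, sin_neg, hc]
        have e1 := sin_sq_add_cos_sq (θ k)
        have e2 := sin_sq_add_cos_sq (arccos u)
        rw [hc] at e2
        nlinarith [sq_nonneg (sin (θ k) - sin (arccos u))]
      have h2 : (cos (θ k) - u) ^ 2 ≤ 2 - 2 * cos (θ k + arccos u) := by
        rw [cos_add, hc]
        have e1 := sin_sq_add_cos_sq (θ k)
        have e2 := sin_sq_add_cos_sq (arccos u)
        rw [hc] at e2
        nlinarith [sq_nonneg (sin (θ k) + sin (arccos u))]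
      exact add_le_add (mul_le_mul_of_nonneg_left h1 (Jf_nonneg _ _ _))
        (mul_le_mul_of_nonneg_left h2 (Jf_nonneg _ _ _))
    calc ∑ k : Fin (m + 2), (Jf a (m + 1) (θ k + -arccos u) + Jf a (m + 1) (θ k + arccos u)) / Z *
          (cos (θ k) - u) ^ 2
        ≤ ∑ k : Fin (m + 2),
          (Jf b (m + 2) (θ k + -arccos u) + Jf b (m + 2) (θ k + arccos u)) / Z :=
          sum_le_sum fun k _ => hle k
      _ = 10 / (N ^ 2 + 1) := by
          rw [Fin.sum_univ_eq_sum_range (fun k => (Jf b (m + 2) (θ k + -arccos u) +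
            Jf b (m + 2) (θ k + arccos u)) / Z), ← sum_div, sum_add_distrib]
          rw [sum_Jf b (m + 2) (m + 2) le_rfl, sum_Jf b (m + 2) (m + 2) le_rfl, hB, hNm, hZ]
          have : N ^ 4 - 1 = (N ^ 2 - 1) * (N ^ 2 + 1) := by ring
          have h3 : 0 < N ^ 2 - 1 := by nlinarith
          rw [this]
          field_simp; ring
      _ ≤ 10 / N ^ 2 := by
          apply div_le_div_of_nonneg_left (by norm_num) (by positivity) (by linarith)
  · have hcos : ∀ j ∈ range (m + 1), ∀ l ∈ range (m + 1),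
        (fun x => cos (((j : ℝ) - l) * arccos (s x))) ∈ Low J A m := by
      intro j hj l hl
      have hj := mem_range.1 hj
      have hl := mem_range.1 hl
      rcases le_total l j with h | h
      · refine low_congr (low_mono (show j - l ≤ m by omega) (low_cos hs hs1 (j - l))) ?_
        intro x; rw [Nat.cast_sub h]
      · refine low_congr (low_mono (show l - j ≤ m by omega) (low_cos hs hs1 (l - j))) ?_
        intro x; rw [Nat.cast_sub h, ← cos_neg]; congr 1; ring
    refine low_congr (low_sum (range (m + 1)) fun j hj => low_sum (range (m + 1)) fun l hl =>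
      low_smul (a j * a l * (2 * cos (((j : ℝ) - l) * θ k)) / Z) (hcos j hj l hl)) ?_
    intro x
    simp only []
    rw [Jf_eq, Jf_eq, ← sum_add_distrib, sum_div]
    refine sum_congr rfl fun j _ => ?_
    rw [← sum_add_distrib, sum_div]
    refine sum_congr rfl fun l _ => ?_
    rw [mul_add, mul_add, cos_add, cos_add, mul_neg, cos_neg, sin_neg]
    ring

end Vale.Agent.P047
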