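import Mathlib

namespace Vale.Agent.P047

open Finset

variable {J J' A B : Type*}

/-- product weight -/
def pw [Fintype J] (μ : A → ℝ) (x : J → A) : ℝ := ∏ j, μ (x j)

/-- expectation for the product weight -/
def Ex (J : Type*) [Fintype J] [DecidableEq J] [Fintype A] (μ : A → ℝ) (F : (J → A) → ℝ) : ℝ :=
  ∑ x : J → A, pw μ x * F x

section
variable [Fintype J] [DecidableEq J] [Fintype A]

lemma sum_prod_pi (f : J → A → ℝ) : ∑ x : J → A, ∏ j, f j (x j) = ∏ j, ∑ a, f j a := by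
  rw [Finset.prod_univ_sum]
  simp

omit [DecidableEq J] [Fintype A] in
lemma pw_nonneg {μ : A → ℝ} (hμ : ∀ a, 0 ≤ μ a) (x : J → A) : 0 ≤ pw μ x :=
  prod_nonneg fun _ _ => hμ _

lemma Ex_prod (μ : A → ℝ) (f : J → A → ℝ) :
    Ex J μ (fun x => ∏ j, f j (x j)) = ∏ j, ∑ a, μ a * f j a := by
  unfold Ex pw
  simp only [← prod_mul_distrib]
  exact sum_prod_pi (fun j a => μ a * f j a)

lemma Ex_add (μ : A → ℝ) (F G : (J → A) → ℝ) :
    Ex J μ (fun x => F x + G x) = Ex J μ F + Ex J μ G := by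
  unfold Ex; simp only [mul_add, sum_add_distrib]

lemma Ex_sub (μ : A → ℝ) (F G : (J → A) → ℝ) :
    Ex J μ (fun x => F x - G x) = Ex J μ F - Ex J μ G := by
  unfold Ex; simp only [mul_sub, sum_sub_distrib]

lemma Ex_smul (μ : A → ℝ) (c : ℝ) (F : (J → A) → ℝ) :
    Ex J μ (fun x => c * F x) = c * Ex J μ F := by
  unfold Ex; rw [mul_sum]; exact sum_congr rfl fun x _ => by ring

lemma Ex_sum {ι : Type*} (μ : A → ℝ) (s : Finset ι) (F : ι → (J → A) → ℝ) :
    Ex J μ (fun x => ∑ i ∈ s, F i x) = ∑ i ∈ s, Ex J μ (F i) := by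
  unfold Ex; simp only [mul_sum]; exact sum_comm

lemma Ex_congr (μ : A → ℝ) {F G : (J → A) → ℝ} (h : ∀ x, F x = G x) : Ex J μ F = Ex J μ G := by
  have : F = G := funext h
  rw [this]

lemma Ex_mono {μ : A → ℝ} (hμ : ∀ a, 0 ≤ μ a) {F G : (J → A) → ℝ} (h : ∀ x, F x ≤ G x) :
    Ex J μ F ≤ Ex J μ G :=
  sum_le_sum fun x _ => mul_le_mul_of_nonneg_left (h x) (pw_nonneg hμ x)

lemma Ex_nonneg {μ : A → ℝ} (hμ : ∀ a, 0 ≤ μ a) {F : (J → A) → ℝ} (h : ∀ x, 0 ≤ F x) :
    0 ≤ Ex J μ F :=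
  sum_nonneg fun x _ => mul_nonneg (pw_nonneg hμ x) (h x)

lemma sum_pw {μ : A → ℝ} (h1 : ∑ a, μ a = 1) : ∑ x : J → A, pw μ x = 1 := by
  unfold pw
  rw [sum_prod_pi (fun _ a => μ a)]
  simp [h1]

lemma Ex_const {μ : A → ℝ} (h1 : ∑ a, μ a = 1) (c : ℝ) : Ex J μ (fun _ => c) = c := by
  unfold Ex
  rw [← sum_mul, sum_pw h1, one_mul]

lemma Ex_coord {μ : A → ℝ} (h1 : ∑ a, μ a = 1) (j : J) (u : A → ℝ) :
    Ex J μ (fun x => u (x j)) = ∑ a, μ a * u a := by
  have := Ex_prod μ (fun i a => if i = j then u a else 1)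
  simp only [prod_ite_eq', mem_univ, if_true] at this
  rw [this, ← mul_prod_erase univ _ (mem_univ j)]
  simp only [if_true]
  rw [prod_eq_one, mul_one]
  intro i hi
  simp [(mem_erase.1 hi).1, h1]

lemma Ex_pair {μ : A → ℝ} (h1 : ∑ a, μ a = 1) {i j : J} (hij : i ≠ j) (u w : A → ℝ) :
    Ex J μ (fun x => u (x i) * w (x j)) = (∑ a, μ a * u a) * ∑ a, μ a * w a := by
  have := Ex_prod μ (fun k a => if k = i then u a else if k = j then w a else 1)
  have hj : j ∈ univ.erase i := by simp [hij.symm]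
  have e1 : ∀ x : J → A, (∏ k, if k = i then u (x k) else if k = j then w (x k) else 1)
      = u (x i) * w (x j) := by
    intro x
    rw [← mul_prod_erase univ _ (mem_univ i), ← mul_prod_erase _ _ hj, prod_eq_one]
    · simp [hij.symm]
    · intro k hk
      simp only [mem_erase] at hk
      simp [hk.1, hk.2.1]
  simp only [e1] at this
  rw [this, ← mul_prod_erase univ _ (mem_univ i), ← mul_prod_erase _ _ hj, prod_eq_one]
  · simp [hij.symm]
  · intro k hk
    simp only [mem_erase] at hk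
    simp [hk.1, hk.2.1, h1]

lemma Ex_sum_sq {μ : A → ℝ} (h1 : ∑ a, μ a = 1) (u : A → ℝ) (hu : ∑ a, μ a * u a = 0) :
    Ex J μ (fun x => (∑ j, u (x j)) ^ 2) = Fintype.card J * ∑ a, μ a * u a ^ 2 := by
  have e : ∀ x : J → A, (∑ j, u (x j)) ^ 2 = ∑ i, ∑ j, u (x i) * u (x j) := by
    intro x; rw [sq, sum_mul_sum]
  simp only [e]
  rw [Ex_sum]
  have : ∀ i : J, Ex J μ (fun x => ∑ j, u (x i) * u (x j)) = ∑ a, μ a * u a ^ 2 := by
    intro i
    rw [Ex_sum, sum_eq_single i]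
    · rw [← Ex_coord h1 i (fun a => u a ^ 2)]
      exact Ex_congr μ fun x => by ring
    · intro j _ hji
      rw [Ex_pair h1 hji.symm, hu, zero_mul]
    · simp
  simp [this]

lemma Ex_sum_coord {μ : A → ℝ} (h1 : ∑ a, μ a = 1) (u : A → ℝ) :
    Ex J μ (fun x => ∑ j, u (x j)) = Fintype.card J * ∑ a, μ a * u a := by
  rw [Ex_sum]
  simp [Ex_coord h1]

lemma Ex_exp (μ : A → ℝ) (u : A → ℝ) :
    Ex J μ (fun x => Real.exp (∑ j, u (x j))) = (∑ a, μ a * Real.exp (u a)) ^ Fintype.card J := by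
  simp only [Real.exp_sum]
  rw [Ex_prod μ (fun _ a => Real.exp (u a))]
  simp

/-- pushing forward coordinate-dependent weights along a map of alphabets -/
lemma sum_push [Fintype B] [DecidableEq A] (σ : B → A) (ν : J → B → ℝ) (F : (J → A) → ℝ) :
    ∑ w : J → B, (∏ j, ν j (w j)) * F (fun j => σ (w j)) =
      ∑ x : J → A, (∏ j, ∑ b, if σ b = x j then ν j b else 0) * F x := by
  have e : ∀ x : J → A, (∏ j, ∑ b, if σ b = x j then ν j b else 0)
      = ∑ w : J → B, ∏ j, if σ (w j) = x j then ν j (w j) else 0 := by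
    intro x
    rw [sum_prod_pi (fun j b => if σ b = x j then ν j b else 0)]
  simp only [e, sum_mul]
  rw [sum_comm]
  refine sum_congr rfl fun w _ => ?_
  rw [sum_eq_single (fun j => σ (w j))]
  · simp
  · intro x _ hx
    obtain ⟨j, hj⟩ : ∃ j, σ (w j) ≠ x j := by
      by_contra hcon
      push Not at hcon
      exact hx (funext fun j => (hcon j).symm)
    rw [prod_eq_zero (mem_univ j) (by simp [hj]), zero_mul]
  · simp

end

lemma Ex_sumType [Fintype J] [DecidableEq J] [Fintype J'] [DecidableEq J'] [Fintype A]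
    (μ : A → ℝ) (G : (J → A) → (J' → A) → ℝ) :
    Ex (J ⊕ J') μ (fun x => G (fun j => x (Sum.inl j)) (fun j => x (Sum.inr j))) =
      ∑ x : J → A, ∑ y : J' → A, pw μ x * pw μ y * G x y := by
  unfold Ex
  rw [← Fintype.sum_prod_type']
  refine Fintype.sum_equiv (Equiv.sumArrowEquivProdArrow J J' A) _ _ ?_
  intro x
  simp only [pw, Fintype.prod_sum_type]
  rfl

lemma Ex_prodType [Fintype J] [DecidableEq J] [Fintype J'] [DecidableEq J'] [Fintype A]
    (μ : A → ℝ) (G : (J → J' → A) → ℝ) :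
    Ex (J × J') μ (fun z => G (fun j i => z (j, i))) = Ex J (pw μ) G := by
  unfold Ex
  refine Fintype.sum_equiv (Equiv.curry J J' A) _ _ ?_
  intro x
  simp only [pw, Fintype.prod_prod_type]
  rfl

end Vale.Agent.P047
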