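import Mathlib

namespace Vale.Agent.P047

open Finset Real

/-- Deterministic sequential rounding to integers along a triangular kernel. -/
lemma round_det {X : Type*} [DecidableEq X] (T : Finset X) (rank : X → ℕ) (h : X → X → ℝ)
    (hh : ∀ x ∈ T, ∀ y, h x y ≠ 0 → rank y < rank x) (φ : X → ℝ) :
    ∃ η : X → ℝ, (∀ x, |η x| ≤ 1) ∧
      ∀ x ∈ T, ∃ z : ℤ, φ x + ∑ x' ∈ T, η x' * h x' x + η x = z := by
  induction T using Finset.induction_on_min_value rank with
  | empty => exact ⟨fun _ => 0, by simp, by simp⟩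
  | insert a S ha hmin ih =>
    obtain ⟨η, hη, hz⟩ := ih (fun x hx => hh x (mem_insert_of_mem hx))
    set p : ℝ := φ a + ∑ x' ∈ S, η x' * h x' a with hp
    have hsum : ∀ y, ∑ x' ∈ S, Function.update η a (⌈p⌉ - p) x' * h x' y
        = ∑ x' ∈ S, η x' * h x' y := by
      intro y
      refine sum_congr rfl fun x hx => ?_
      rw [Function.update_of_ne (ne_of_mem_of_not_mem hx ha)]
    refine ⟨Function.update η a (⌈p⌉ - p), fun x => ?_, fun x hx => ?_⟩
    · by_cases hxa : x = a
      · subst hxa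
        rw [Function.update_self, abs_le]
        have := Int.le_ceil p
        have := Int.ceil_lt_add_one p
        constructor <;> linarith
      · rw [Function.update_of_ne hxa]; exact hη x
    · have h0 : h a x = 0 := by
        by_contra hne
        have h1 := hh a (mem_insert_self _ _) x hne
        rcases mem_insert.1 hx with rfl | hx
        · exact lt_irrefl _ h1
        · have := hmin x hx; omega
      rw [sum_insert ha, h0, mul_zero, zero_add, hsum]
      rcases mem_insert.1 hx with rfl | hx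
      · exact ⟨⌈p⌉, by rw [Function.update_self, hp]; ring⟩
      · rw [Function.update_of_ne (ne_of_mem_of_not_mem hx ha)]
        exact hz x hx

lemma hoeffding_step {O : Type*} [Fintype O] (w ξ : O → ℝ) (hw : ∀ o, 0 ≤ w o)
    (hw1 : ∑ o, w o = 1) (hξ : ∀ o, |ξ o| ≤ 1) (hm : ∑ o, w o * ξ o = 0) (u : ℝ) :
    ∑ o, w o * exp (u * ξ o) ≤ exp (u ^ 2 / 2) := by
  have h1 : ∀ o, exp (u * ξ o) ≤ cosh u + ξ o * sinh u := by
    intro o
    have hb := abs_le.1 (hξ o)
    have := convexOn_exp.2 (Set.mem_univ u) (Set.mem_univ (-u))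
      (show 0 ≤ (1 + ξ o) / 2 by linarith) (show 0 ≤ (1 - ξ o) / 2 by linarith) (by ring)
    simp only [smul_eq_mul] at this
    rw [cosh_eq, sinh_eq]
    calc exp (u * ξ o) = exp ((1 + ξ o) / 2 * u + (1 - ξ o) / 2 * -u) := by congr 1; ring
      _ ≤ _ := this
      _ = _ := by ring
  calc ∑ o, w o * exp (u * ξ o) ≤ ∑ o, w o * (cosh u + ξ o * sinh u) :=
        sum_le_sum fun o _ => mul_le_mul_of_nonneg_left (h1 o) (hw o)
    _ = (∑ o, w o) * cosh u + (∑ o, w o * ξ o) * sinh u := by
        rw [sum_mul, sum_mul, ← sum_add_distrib]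
        exact sum_congr rfl fun o _ => by ring
    _ = cosh u := by rw [hw1, hm]; ring
    _ ≤ _ := cosh_le_exp_half_sq u

lemma exists_le_avg {O : Type*} [Fintype O] (w F : O → ℝ) (hw : ∀ o, 0 ≤ w o)
    (hw1 : ∑ o, w o = 1) (c : ℝ) (h : ∑ o, w o * F o ≤ c) : ∃ o, F o ≤ c := by
  by_contra hcon
  push Not at hcon
  obtain ⟨o, -, ho⟩ : ∃ o ∈ (univ : Finset O), w o ≠ 0 := by
    apply exists_ne_zero_of_sum_ne_zero; rw [hw1]; norm_num
  have : ∑ o, w o * c < ∑ o, w o * F o := by
    apply sum_lt_sum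
    · exact fun o _ => mul_le_mul_of_nonneg_left (hcon o).le (hw o)
    · exact ⟨o, mem_univ o, mul_lt_mul_of_pos_left (hcon o) (lt_of_le_of_ne (hw o) ho.symm)⟩
  rw [← sum_mul, hw1, one_mul] at this
  linarith

/-- sign with value `1` at zero -/
noncomputable def sgn (p : ℝ) : ℝ := if p < 0 then -1 else 1

lemma abs_mul_sgn (p : ℝ) : |p| * sgn p = p := by
  unfold sgn
  split_ifs with h
  · rw [abs_of_neg h]; ring
  · rw [abs_of_nonneg (not_lt.1 h)]; ring

lemma abs_sgn_sub {p : ℝ} (hp : |p| ≤ 1) : |sgn p - p| ≤ 1 := by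
  unfold sgn
  have := abs_le.1 hp
  split_ifs with h
  · rw [abs_le]; constructor <;> linarith
  · rw [abs_le]; constructor <;> linarith [not_lt.1 h]

/-- the integer vector chosen by an outcome -/
noncomputable def val {κ : Type*} [DecidableEq κ] (o : Option κ) (p : κ → ℝ) (k : κ) : ℝ :=
  if o = some k then sgn (p k) else 0

/-- outcome probabilities -/
noncomputable def wt {κ : Type*} [Fintype κ] (p : κ → ℝ) : Option κ → ℝ
  | none => 1 - ∑ k, |p k|
  | some k => |p k|

lemma wt_sum {κ : Type*} [Fintype κ] (p : κ → ℝ) : ∑ o, wt p o = 1 := by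
  simp [Fintype.sum_option, wt]

lemma wt_nonneg {κ : Type*} [Fintype κ] {p : κ → ℝ} (hp : ∑ k, |p k| ≤ 1) (o : Option κ) :
    0 ≤ wt p o := by
  cases o with
  | none => simp only [wt]; linarith
  | some k => exact abs_nonneg _

lemma wt_step {κ : Type*} [Fintype κ] [DecidableEq κ] {p : κ → ℝ} (hp : ∑ k, |p k| ≤ 1)
    (k : κ) (u : ℝ) : ∑ o, wt p o * exp (u * (val o p k - p k)) ≤ exp (u ^ 2 / 2) := by
  have hk : |p k| ≤ 1 :=
    (single_le_sum (f := fun k => |p k|) (fun _ _ => abs_nonneg _) (mem_univ k)).trans hp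
  refine hoeffding_step _ _ (wt_nonneg hp) (wt_sum p) (fun o => ?_) ?_ u
  · unfold val
    split_ifs
    · exact abs_sgn_sub hk
    · simpa using hk
  · simp only [mul_sub, sum_sub_distrib, ← sum_mul, wt_sum, one_mul]
    rw [sum_eq_single (some k)]
    · simp [val, wt, abs_mul_sgn]
    · intro o _ ho; simp [val, ho]
    · simp

section rand

variable {X κ Cc : Type*} [Fintype X] [DecidableEq X] [Fintype κ] [DecidableEq κ]
  [Fintype Cc] [DecidableEq Cc]

/-- accumulated shift -/
def shf (h : X → X → ℝ) (S : Finset X) (η : X → κ → ℝ) (y : X) (k : κ) : ℝ :=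
  ∑ x ∈ S, η x k * h x y

/-- first potential -/
noncomputable def pot1 (h : X → X → ℝ) (lam : ℝ) (S : Finset X) (η : X → κ → ℝ) : ℝ :=
  ∑ y, ∑ k, (exp (lam * shf h S η y k - lam ^ 2 / 2 * ∑ x ∈ S, h x y ^ 2) +
    exp (-lam * shf h S η y k - lam ^ 2 / 2 * ∑ x ∈ S, h x y ^ 2))

/-- third potential -/
noncomputable def pot3 (res : X → Prop) [DecidablePred res] (col : X → Cc) (γ : ℝ)
    (S : Finset X) (out : X → Option κ) : ℝ :=
  ∑ c, exp (∑ x ∈ S, if res x ∧ col x = c then (if out x = none then 0 else 1) - 2 * γ else 0)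

omit [Fintype X] [Fintype κ] [DecidableEq κ] in
lemma shf_insert (h : X → X → ℝ) {S : Finset X} {a : X} (ha : a ∉ S) (η : X → κ → ℝ)
    (e : κ → ℝ) (y : X) (k : κ) :
    shf h (insert a S) (Function.update η a e) y k = shf h S η y k + e k * h a y := by
  unfold shf
  rw [sum_insert ha, Function.update_self, add_comm]
  congr 1
  refine sum_congr rfl fun x hx => ?_
  rw [Function.update_of_ne (ne_of_mem_of_not_mem hx ha)]

lemma pot1_step (h : X → X → ℝ) (lam : ℝ) {S : Finset X} {a : X} (ha : a ∉ S) (η : X → κ → ℝ)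
    {p : κ → ℝ} (hp : ∑ k, |p k| ≤ 1) :
    ∑ o, wt p o * pot1 h lam (insert a S) (Function.update η a (fun k => val o p k - p k))
      ≤ pot1 h lam S η := by
  unfold pot1
  simp only [mul_sum]
  rw [sum_comm]
  refine sum_le_sum fun y _ => ?_
  rw [sum_comm]
  refine sum_le_sum fun k _ => ?_
  simp only [shf_insert h ha, sum_insert ha, mul_add, sum_add_distrib]
  have key : ∀ l : ℝ, l ^ 2 = lam ^ 2 →
      ∑ o, wt p o * exp (l * shf h S η y k + l * ((val o p k - p k) * h a y) -
        (lam ^ 2 / 2 * h a y ^ 2 + ∑ x ∈ S, lam ^ 2 / 2 * h x y ^ 2)) ≤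
        exp (l * shf h S η y k - ∑ x ∈ S, lam ^ 2 / 2 * h x y ^ 2) := by
    intro l hl
    have h1 := wt_step hp k (l * h a y)
    have e : ∀ o : Option κ, wt p o * exp (l * shf h S η y k + l * ((val o p k - p k) * h a y) -
        (lam ^ 2 / 2 * h a y ^ 2 + ∑ x ∈ S, lam ^ 2 / 2 * h x y ^ 2)) =
        exp (l * shf h S η y k - ∑ x ∈ S, lam ^ 2 / 2 * h x y ^ 2 - (l * h a y) ^ 2 / 2) *
          (wt p o * exp (l * h a y * (val o p k - p k))) := by
      intro o
      rw [mul_left_comm (exp _) (wt p o), ← exp_add, mul_pow, hl]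
      congr 2; ring
    simp only [e]
    rw [← mul_sum]
    refine (mul_le_mul_of_nonneg_left h1 (exp_pos _).le).trans ?_
    rw [← exp_add]
    apply le_of_eq; congr 1; ring
  exact add_le_add (key lam rfl) (key (-lam) (by ring))

omit [Fintype X] [DecidableEq κ] in
lemma pot3_step (res : X → Prop) [DecidablePred res] (col : X → Cc) (γ : ℝ)
    {S : Finset X} {a : X} (ha : a ∉ S) (out : X → Option κ)
    {p : κ → ℝ} (hγ : res a → ∑ k, |p k| ≤ γ) :
    ∑ o, wt p o * pot3 res col γ (insert a S) (Function.update out a o) ≤ pot3 res col γ S out := by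
  unfold pot3
  simp only [mul_sum]
  rw [sum_comm]
  refine sum_le_sum fun c _ => ?_
  have hS : ∀ o : Option κ, (∑ x ∈ S, if res x ∧ col x = c then
      (if Function.update out a o x = none then (0 : ℝ) else 1) - 2 * γ else 0) =
      ∑ x ∈ S, if res x ∧ col x = c then (if out x = none then 0 else 1) - 2 * γ else 0 := by
    intro o
    refine sum_congr rfl fun x hx => ?_
    rw [Function.update_of_ne (ne_of_mem_of_not_mem hx ha)]
  simp only [sum_insert ha, Function.update_self, hS, exp_add, ← mul_assoc]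
  rw [← sum_mul]
  refine mul_le_of_le_one_left (exp_pos _).le ?_
  by_cases hc : res a ∧ col a = c
  · simp only [hc, and_self, if_true]
    have hγ := hγ hc.1
    have h0 : 0 ≤ ∑ k, |p k| := sum_nonneg fun _ _ => abs_nonneg _
    rw [Fintype.sum_option]
    simp only [wt, if_true, reduceCtorEq, if_false]
    rw [← sum_mul]
    have e1 : exp (1 - 2 * γ) = exp 1 * exp (-(2 * γ)) := by rw [← exp_add]; ring_nf
    have e0 : exp (0 - 2 * γ) = exp (-(2 * γ)) := by ring_nf
    rw [e1, e0]
    have h3 : exp 1 ≤ 3 := by have := exp_one_lt_d9; linarith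
    have h4 : 1 + 2 * γ ≤ exp (2 * γ) := by have := add_one_le_exp (2 * γ); linarith
    have h5 : exp (2 * γ) * exp (-(2 * γ)) = 1 := by rw [← exp_add]; simp
    have h6 := exp_pos (-(2 * γ))
    calc (1 - ∑ k, |p k|) * exp (-(2 * γ)) + (∑ k, |p k|) * (exp 1 * exp (-(2 * γ)))
        = (1 + (∑ k, |p k|) * (exp 1 - 1)) * exp (-(2 * γ)) := by ring
      _ ≤ exp (2 * γ) * exp (-(2 * γ)) := by
          refine mul_le_mul_of_nonneg_right ?_ h6.le
          nlinarith
      _ = 1 := h5
  · simp only [hc, if_false, exp_zero, mul_one, wt_sum, le_refl]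

/-- Randomised sequential rounding, derandomised with a pessimistic estimator. -/
theorem round_rand [Nonempty X] [Nonempty κ] (T : Finset X) (rank : X → ℕ) (h : X → X → ℝ)
    (φ0 : X → κ → ℝ) (γ' γ σ2 lam N2 : ℝ) (a : X → Option κ → ℝ) (abar : X → ℝ)
    (res : X → Prop) [DecidablePred res] (col : X → Cc)
    (hh : ∀ x ∈ T, ∀ y, h x y ≠ 0 → rank y < rank x)
    (hσ : ∀ y, ∑ x ∈ T, h x y ^ 2 ≤ σ2)
    (ha0 : ∀ x o, 0 ≤ a x o) (habar0 : ∀ x, 0 ≤ abar x)
    (hN2 : 0 < N2) (habar : ∑ x ∈ T, abar x ≤ N2)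
    (hp : ∀ x ∈ T, ∀ p : κ → ℝ, (∀ k, |p k - φ0 x k| ≤ γ') →
      ∑ k, |p k| ≤ 1 ∧ ∑ o, wt p o * a x o ≤ abar x ∧ (res x → ∑ k, |p k| ≤ γ))
    (hlam : 0 < lam) (hγ : 0 ≤ γ)
    (hnum : 3 * (2 * Fintype.card X * Fintype.card κ) ≤ exp (lam * γ' - lam ^ 2 / 2 * σ2)) :
    ∃ (out : X → Option κ) (η : X → κ → ℝ),
      (∀ y k, |shf h T η y k| ≤ γ') ∧
      (∀ x ∈ T, ∀ k, φ0 x k + shf h T η x k + η x k =
        val (out x) (fun k => φ0 x k + shf h T η x k) k) ∧
      ∑ x ∈ T, a x (out x) ≤ 3 * N2 ∧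
      ∀ c, exp ((T.filter fun x => res x ∧ col x = c ∧ out x ≠ none).card) ≤
        3 * Fintype.card Cc * exp (2 * γ * (univ.filter fun x => col x = c).card) := by
  have : Nonempty Cc := ⟨col (Classical.arbitrary X)⟩
  set N1 : ℝ := 2 * Fintype.card X * Fintype.card κ with hN1
  set N3 : ℝ := (Fintype.card Cc : ℝ) with hN3
  have hN1p : 0 < N1 := by
    have h1 : (0 : ℝ) < Fintype.card X := by exact_mod_cast Fintype.card_pos
    have h2 : (0 : ℝ) < Fintype.card κ := by exact_mod_cast Fintype.card_pos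
    positivity
  have hN3p : 0 < N3 := by rw [hN3]; exact_mod_cast Fintype.card_pos
  let Φ : Finset X → (X → Option κ) → (X → κ → ℝ) → ℝ := fun S out η =>
    pot1 h lam S η / N1 + (∑ x ∈ S, (a x (out x) - abar x) + N2) / N2 + pot3 res col γ S out / N3
  have hp1 : ∀ S (η : X → κ → ℝ), 0 ≤ pot1 h lam S η := fun S η =>
    sum_nonneg fun _ _ => sum_nonneg fun _ _ => by positivity
  have hp3 : ∀ S (out : X → Option κ), 0 ≤ pot3 res col γ S out := fun S out =>
    sum_nonneg fun _ _ => by positivity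
  have hp2 : ∀ S ⊆ T, ∀ out : X → Option κ, 0 ≤ ∑ x ∈ S, (a x (out x) - abar x) + N2 := by
    intro S hS out
    rw [sum_sub_distrib]
    have h1 : 0 ≤ ∑ x ∈ S, a x (out x) := sum_nonneg fun _ _ => ha0 _ _
    have h2 : ∑ x ∈ S, abar x ≤ ∑ x ∈ T, abar x :=
      sum_le_sum_of_subset_of_nonneg hS fun _ _ _ => habar0 _
    linarith
  have hparts : ∀ S ⊆ T, ∀ out η, Φ S out η ≤ 3 → pot1 h lam S η ≤ 3 * N1 ∧
      ∑ x ∈ S, (a x (out x) - abar x) + N2 ≤ 3 * N2 ∧ pot3 res col γ S out ≤ 3 * N3 := by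
    intro S hS out η hΦ
    have a1 := div_nonneg (hp1 S η) hN1p.le
    have a2 := div_nonneg (hp2 S hS out) hN2.le
    have a3 := div_nonneg (hp3 S out) hN3p.le
    simp only [Φ] at hΦ
    refine ⟨?_, ?_, ?_⟩
    · rw [← div_le_iff₀ hN1p]; linarith
    · rw [← div_le_iff₀ hN2]; linarith
    · rw [← div_le_iff₀ hN3p]; linarith
  have hshift : ∀ S ⊆ T, ∀ η : X → κ → ℝ, pot1 h lam S η ≤ 3 * N1 →
      ∀ y k, |shf h S η y k| ≤ γ' := by
    intro S hS η hη y k
    have hq : ∑ x ∈ S, h x y ^ 2 ≤ σ2 :=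
      (sum_le_sum_of_subset_of_nonneg hS fun _ _ _ => sq_nonneg _).trans (hσ y)
    have hterm : exp (lam * shf h S η y k - lam ^ 2 / 2 * ∑ x ∈ S, h x y ^ 2) +
        exp (-lam * shf h S η y k - lam ^ 2 / 2 * ∑ x ∈ S, h x y ^ 2) ≤ pot1 h lam S η := by
      unfold pot1
      refine le_trans ?_ (single_le_sum (f := fun y => ∑ k, (exp (lam * shf h S η y k -
        lam ^ 2 / 2 * ∑ x ∈ S, h x y ^ 2) + exp (-lam * shf h S η y k -
          lam ^ 2 / 2 * ∑ x ∈ S, h x y ^ 2)))
        (fun _ _ => sum_nonneg fun _ _ => by positivity) (mem_univ y))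
      exact single_le_sum (f := fun k => (exp (lam * shf h S η y k -
        lam ^ 2 / 2 * ∑ x ∈ S, h x y ^ 2) + exp (-lam * shf h S η y k -
          lam ^ 2 / 2 * ∑ x ∈ S, h x y ^ 2))) (fun _ _ => by positivity) (mem_univ k)
    have hb := hterm.trans (hη.trans hnum)
    have e1 := exp_pos (lam * shf h S η y k - lam ^ 2 / 2 * ∑ x ∈ S, h x y ^ 2)
    have e2 := exp_pos (-lam * shf h S η y k - lam ^ 2 / 2 * ∑ x ∈ S, h x y ^ 2)
    have f1 := exp_le_exp.1 (show exp (lam * shf h S η y k - lam ^ 2 / 2 * ∑ x ∈ S, h x y ^ 2)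
      ≤ exp (lam * γ' - lam ^ 2 / 2 * σ2) by linarith)
    have f2 := exp_le_exp.1 (show exp (-lam * shf h S η y k - lam ^ 2 / 2 * ∑ x ∈ S, h x y ^ 2)
      ≤ exp (lam * γ' - lam ^ 2 / 2 * σ2) by linarith)
    have hl2 : lam ^ 2 / 2 * ∑ x ∈ S, h x y ^ 2 ≤ lam ^ 2 / 2 * σ2 :=
      mul_le_mul_of_nonneg_left hq (by positivity)
    have hq0 : 0 ≤ lam ^ 2 / 2 * ∑ x ∈ S, h x y ^ 2 :=
      mul_nonneg (by positivity) (sum_nonneg fun _ _ => sq_nonneg _)
    rw [abs_le]
    constructor
    · have : lam * (-γ') ≤ lam * shf h S η y k := by linarith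
      exact le_of_mul_le_mul_left this hlam
    · have : lam * shf h S η y k ≤ lam * γ' := by linarith
      exact le_of_mul_le_mul_left this hlam
  have main : ∀ S ⊆ T, ∃ (out : X → Option κ) (η : X → κ → ℝ), Φ S out η ≤ 3 ∧
      ∀ x ∈ S, ∀ k, φ0 x k + shf h S η x k + η x k =
        val (out x) (fun k => φ0 x k + shf h S η x k) k := by
    intro S
    induction S using Finset.induction_on_min_value rank with
    | empty =>
      intro _
      refine ⟨fun _ => none, fun _ _ => 0, ?_, by simp⟩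
      simp only [Φ, pot1, pot3, shf, sum_empty, mul_zero, sub_zero, exp_zero, sum_const,
        card_univ, nsmul_eq_mul, zero_add, mul_one]
      rw [div_self hN2.ne', ← hN3, div_self hN3p.ne']
      have : (Fintype.card X : ℝ) * (Fintype.card κ * (1 + 1)) = N1 := by rw [hN1]; ring
      rw [this, div_self hN1p.ne']; norm_num
    | insert b S hb hmin ih =>
      intro hS
      have hST : S ⊆ T := fun x hx => hS (mem_insert_of_mem hx)
      have hbT : b ∈ T := hS (mem_insert_self _ _)
      obtain ⟨out, η, hΦ, heq⟩ := ih hST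
      have hsh := hshift S hST η (hparts S hST out η hΦ).1
      set p : κ → ℝ := fun k => φ0 b k + shf h S η b k with hpdef
      obtain ⟨hp1', hp2', hp3'⟩ := hp b hbT p (fun k => by simpa [hpdef] using hsh b k)
      have havg : ∑ o, wt p o * Φ (insert b S) (Function.update out b o)
          (Function.update η b (fun k => val o p k - p k)) ≤ 3 := by
        refine le_trans ?_ hΦ
        simp only [Φ, mul_add, sum_add_distrib, ← mul_div_assoc, ← sum_div]
        have t1 := pot1_step h lam hb η hp1'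
        have t3 := pot3_step res col γ hb out hp3'
        have t2 : ∑ o, wt p o * ∑ x ∈ insert b S, (a x (Function.update out b o x) - abar x) +
            ∑ o, wt p o * N2 ≤ ∑ x ∈ S, (a x (out x) - abar x) + N2 := by
          have e : ∀ o : Option κ, ∑ x ∈ insert b S, (a x (Function.update out b o x) - abar x)
              = a b o + (∑ x ∈ S, (a x (out x) - abar x) - abar b) := by
            intro o
            rw [sum_insert hb, Function.update_self]
            have : ∑ x ∈ S, (a x (Function.update out b o x) - abar x)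
                = ∑ x ∈ S, (a x (out x) - abar x) := by
              refine sum_congr rfl fun x hx => ?_
              rw [Function.update_of_ne (ne_of_mem_of_not_mem hx hb)]
            rw [this]; ring
          simp only [e, mul_add, sum_add_distrib, ← sum_mul, wt_sum, one_mul]
          linarith
        gcongr
      obtain ⟨o, ho⟩ := exists_le_avg _ _ (wt_nonneg hp1') (wt_sum p) 3 havg
      refine ⟨_, _, ho, fun x hx k => ?_⟩
      have h0 : h b x = 0 := by
        by_contra hne
        have h1 := hh b hbT x hne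
        rcases mem_insert.1 hx with rfl | hx
        · exact lt_irrefl _ h1
        · have := hmin x hx; omega
      simp only [shf_insert h hb, h0, mul_zero, add_zero]
      rcases mem_insert.1 hx with rfl | hx
      · simp only [Function.update_self]
        change p k + (val o p k - p k) = val o p k
        ring
      · rw [Function.update_of_ne (ne_of_mem_of_not_mem hx hb),
          Function.update_of_ne (ne_of_mem_of_not_mem hx hb)]
        exact heq x hx k
  obtain ⟨out, η, hΦ, heq⟩ := main T subset_rfl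
  obtain ⟨q1, q2, q3⟩ := hparts T subset_rfl out η hΦ
  refine ⟨out, η, hshift T subset_rfl η q1, heq, ?_, fun c => ?_⟩
  · rw [sum_sub_distrib] at q2; linarith
  · have hterm : exp (∑ x ∈ T, if res x ∧ col x = c then
        (if out x = none then (0 : ℝ) else 1) - 2 * γ else 0) ≤ pot3 res col γ T out :=
      single_le_sum (f := fun c => exp (∑ x ∈ T, if res x ∧ col x = c then
        (if out x = none then (0 : ℝ) else 1) - 2 * γ else 0)) (fun _ _ => (exp_pos _).le)
        (mem_univ c)
    have hle : ((T.filter fun x => res x ∧ col x = c ∧ out x ≠ none).card : ℝ) ≤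
        (∑ x ∈ T, if res x ∧ col x = c then (if out x = none then (0 : ℝ) else 1) - 2 * γ else 0)
          + 2 * γ * (univ.filter fun x => col x = c).card := by
      have e1 : ((T.filter fun x => res x ∧ col x = c ∧ out x ≠ none).card : ℝ) =
          ∑ x ∈ T, if res x ∧ col x = c ∧ out x ≠ none then 1 else 0 := by simp
      have e2 : 2 * γ * ((univ.filter fun x => col x = c).card : ℝ) =
          ∑ x, if col x = c then 2 * γ else 0 := by
        rw [← sum_filter]; simp [mul_comm]
      have e3 : ∑ x ∈ T, (if col x = c then 2 * γ else 0) ≤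
          ∑ x, if col x = c then 2 * γ else 0 :=
        sum_le_sum_of_subset_of_nonneg (subset_univ _) fun _ _ _ => by
          split_ifs <;> linarith
      rw [e1, e2]
      refine le_trans ?_ (add_le_add_right e3 _)
      rw [← sum_add_distrib]
      refine sum_le_sum fun x _ => ?_
      by_cases h1 : res x <;> by_cases h2 : col x = c <;> by_cases h3 : out x = none <;>
        simp [h1, h2, h3] <;> linarith
    calc exp ((T.filter fun x => res x ∧ col x = c ∧ out x ≠ none).card)
        ≤ exp ((∑ x ∈ T, if res x ∧ col x = c then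
          (if out x = none then (0 : ℝ) else 1) - 2 * γ else 0)
          + 2 * γ * (univ.filter fun x => col x = c).card) := exp_le_exp.2 hle
      _ ≤ _ := by
        rw [exp_add]
        exact mul_le_mul_of_nonneg_right (hterm.trans q3) (exp_pos _).le

end rand

end Vale.Agent.P047
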