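import Vale.Agent.P047.Low
import Vale.Agent.P047.Prob
import Vale.Agent.P047.Round

namespace Vale.Agent.P047

open Finset Real

variable {J A : Type*} [Fintype J] [DecidableEq J] [Fintype A] [DecidableEq A]

/-- the uniform weight -/
noncomputable def unif (A : Type*) [Fintype A] : A → ℝ := fun _ => 1 / Fintype.card A

omit [DecidableEq A] in
lemma sum_unif [Nonempty A] : ∑ a, unif A a = 1 := by
  have : (Fintype.card A : ℝ) ≠ 0 := by exact_mod_cast Fintype.card_ne_zero
  simp [unif]

omit [DecidableEq A] in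
lemma unif_nonneg (a : A) : 0 ≤ unif A a := by simp [unif]

lemma few_hits [Nonempty A] (r : ℕ) (x : J → A) :
    Ex J (unif A) (fun c => if hits c x < r then 1 else 0) ≤
      exp (r - Fintype.card J / (2 * Fintype.card A)) := by
  have hK : (0 : ℝ) < Fintype.card A := by exact_mod_cast Fintype.card_pos
  have hK1 : (1 : ℝ) ≤ Fintype.card A := by exact_mod_cast Fintype.card_pos
  have h1 : ∀ c : J → A, (if hits c x < r then (1 : ℝ) else 0) ≤
      2 ^ r * ∏ j, (if x j = c j then (1 / 2 : ℝ) else 1) := by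
    intro c
    have e : ∏ j, (if x j = c j then (1 / 2 : ℝ) else 1) = (1 / 2) ^ hits c x := by
      rw [prod_ite]; simp [hits]
    rw [e]
    split_ifs with h
    · rw [one_div, inv_pow, ← div_eq_mul_inv, le_div_iff₀ (by positivity), one_mul]
      exact pow_le_pow_right₀ (by norm_num) h.le
    · positivity
  refine (Ex_mono unif_nonneg h1).trans ?_
  rw [Ex_smul, Ex_prod (unif A) (fun j a => if x j = a then (1 / 2 : ℝ) else 1)]
  have e : ∀ j, ∑ a, unif A a * (if x j = a then (1 / 2 : ℝ) else 1)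
      = 1 - 1 / (2 * Fintype.card A) := by
    intro j
    have : ∀ a, unif A a * (if x j = a then (1 / 2 : ℝ) else 1)
        = unif A a - (if x j = a then 1 / (2 * (Fintype.card A : ℝ)) else 0) := by
      intro a
      unfold unif
      split_ifs
      · field_simp; ring
      · ring
    simp only [this, sum_sub_distrib, sum_unif, sum_ite_eq, mem_univ, if_true]
  simp only [e, prod_const, card_univ]
  have h2 : (2 : ℝ) ^ r ≤ exp r := by
    have : (2 : ℝ) ≤ exp 1 := by have := add_one_le_exp (1 : ℝ); linarith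
    calc (2 : ℝ) ^ r ≤ (exp 1) ^ r := pow_le_pow_left₀ (by norm_num) this r
      _ = exp r := by rw [← exp_nat_mul]; simp
  have h3 : (1 - 1 / (2 * (Fintype.card A : ℝ))) ^ Fintype.card J ≤
      exp (-(Fintype.card J / (2 * Fintype.card A))) := by
    have a1 : 0 ≤ 1 - 1 / (2 * (Fintype.card A : ℝ)) := by
      rw [sub_nonneg, div_le_one (by positivity)]; linarith
    have a2 : 1 - 1 / (2 * (Fintype.card A : ℝ)) ≤ exp (-(1 / (2 * Fintype.card A))) := by
      have := add_one_le_exp (-(1 / (2 * (Fintype.card A : ℝ)))); linarith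
    calc _ ≤ (exp (-(1 / (2 * (Fintype.card A : ℝ))))) ^ Fintype.card J :=
          pow_le_pow_left₀ a1 a2 _
      _ = _ := by rw [← exp_nat_mul]; congr 1; ring
  have a1 : 0 ≤ (1 - 1 / (2 * (Fintype.card A : ℝ))) ^ Fintype.card J := by
    apply pow_nonneg
    rw [sub_nonneg, div_le_one (by positivity)]; linarith
  calc _ ≤ exp r * exp (-(Fintype.card J / (2 * Fintype.card A))) :=
        mul_le_mul h2 h3 a1 (exp_pos _).le
    _ = _ := by rw [← exp_add]; ring_nf

open Classical in
theorem exists_refs [Nonempty A] {X1 : Type*} [Fintype X1] [Nonempty X1] (r : ℕ)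
    (ν : (J → A) → ℝ) (hν : ∀ x, 0 ≤ ν x) (hν1 : ∑ x, ν x = 1) (p : ℝ)
    (hp : exp (r - Fintype.card J / (2 * Fintype.card A)) ≤ p) :
    ∃ c : X1 → J → A,
      (∀ x, exp ((univ.filter fun x1 => hits (c x1) x < r).card) ≤
        2 * (Fintype.card (J → A) * exp (2 * p * Fintype.card X1))) ∧
      ∑ x, ν x * (if ∃ x1, hits (c x1) x < r then 1 else 0) ≤ 2 * (p * Fintype.card X1) := by
  have hp0 : 0 < p := (exp_pos _).trans_le hp
  have hX : (0 : ℝ) < Fintype.card X1 := by exact_mod_cast Fintype.card_pos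
  have hY : (0 : ℝ) < Fintype.card (J → A) := by exact_mod_cast Fintype.card_pos
  set N1 : ℝ := Fintype.card (J → A) * exp (2 * p * Fintype.card X1) with hN1
  set N2 : ℝ := p * Fintype.card X1 with hN2
  have hN1p : 0 < N1 := by positivity
  have hN2p : 0 < N2 := by positivity
  let ind : (J → A) → (J → A) → ℝ := fun c x => if hits c x < r then 1 else 0
  have hind0 : ∀ c x, 0 ≤ ind c x := fun c x => by simp only [ind]; split_ifs <;> norm_num
  have hind : ∀ x, ∑ c, pw (unif A) c * ind c x ≤ p := fun x => (few_hits r x).trans hp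
  let F1 : (X1 → J → A) → ℝ := fun c => ∑ x, exp (∑ x1, ind (c x1) x)
  let F2 : (X1 → J → A) → ℝ := fun c => ∑ x, ν x * ∑ x1, ind (c x1) x
  have hw1 : ∑ c : J → A, pw (unif A) c = 1 := sum_pw sum_unif
  have hE1 : Ex X1 (pw (unif A)) F1 ≤ N1 := by
    simp only [F1]
    rw [Ex_sum]
    have : ∀ x : J → A, Ex X1 (pw (unif A)) (fun c => exp (∑ x1, ind (c x1) x)) ≤
        exp (2 * p * Fintype.card X1) := by
      intro x
      rw [Ex_exp (pw (unif A)) (fun c => ind c x)]
      have h1 : ∑ c, pw (unif A) c * exp (ind c x) ≤ exp (2 * p) := by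
        have h2 : ∀ c, exp (ind c x) ≤ 1 + 2 * ind c x := by
          intro c
          simp only [ind]
          split_ifs
          · have := exp_one_lt_d9; linarith
          · simp
        calc ∑ c, pw (unif A) c * exp (ind c x) ≤ ∑ c, pw (unif A) c * (1 + 2 * ind c x) :=
              sum_le_sum fun c _ => mul_le_mul_of_nonneg_left (h2 c) (pw_nonneg unif_nonneg c)
          _ = ∑ c, pw (unif A) c + 2 * ∑ c, pw (unif A) c * ind c x := by
              rw [mul_sum, ← sum_add_distrib]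
              exact sum_congr rfl fun c _ => by ring
          _ ≤ 1 + 2 * p := by rw [hw1]; linarith [hind x]
          _ ≤ exp (2 * p) := by linarith [add_one_le_exp (2 * p)]
      calc _ ≤ (exp (2 * p)) ^ Fintype.card X1 :=
            pow_le_pow_left₀ (sum_nonneg fun c _ =>
              mul_nonneg (pw_nonneg unif_nonneg c) (exp_pos _).le) h1 _
        _ = _ := by rw [← exp_nat_mul]; congr 1; ring
    calc _ ≤ ∑ _x : J → A, exp (2 * p * Fintype.card X1) := sum_le_sum fun x _ => this x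
      _ = N1 := by simp [hN1]
  have hE2 : Ex X1 (pw (unif A)) F2 ≤ N2 := by
    simp only [F2]
    rw [Ex_sum]
    have : ∀ x : J → A, Ex X1 (pw (unif A)) (fun c => ν x * ∑ x1, ind (c x1) x) ≤ ν x * N2 := by
      intro x
      rw [Ex_smul, Ex_sum_coord hw1 (fun c => ind c x)]
      refine mul_le_mul_of_nonneg_left ?_ (hν x)
      rw [hN2, mul_comm]
      exact mul_le_mul_of_nonneg_right (hind x) hX.le
    calc _ ≤ ∑ x : J → A, ν x * N2 := sum_le_sum fun x _ => this x
      _ = N2 := by rw [← sum_mul, hν1, one_mul]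
  have havg : ∑ c : X1 → J → A, pw (pw (unif A)) c * (N1⁻¹ * F1 c + N2⁻¹ * F2 c) ≤ 2 := by
    change Ex X1 (pw (unif A)) (fun c => N1⁻¹ * F1 c + N2⁻¹ * F2 c) ≤ 2
    rw [Ex_add, Ex_smul, Ex_smul]
    have a1 : N1⁻¹ * Ex X1 (pw (unif A)) F1 ≤ 1 := by rwa [inv_mul_le_iff₀ hN1p, mul_one]
    have a2 : N2⁻¹ * Ex X1 (pw (unif A)) F2 ≤ 1 := by rwa [inv_mul_le_iff₀ hN2p, mul_one]
    linarith
  obtain ⟨c, hc⟩ := exists_le_avg _ _ (pw_nonneg (pw_nonneg unif_nonneg)) (sum_pw hw1) 2 havg
  have hF1 : 0 ≤ F1 c := sum_nonneg fun _ _ => (exp_pos _).le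
  have hF2 : 0 ≤ F2 c := sum_nonneg fun x _ => mul_nonneg (hν x) (sum_nonneg fun _ _ => hind0 _ _)
  have b1 : F1 c ≤ 2 * N1 := by
    have : N1⁻¹ * F1 c ≤ 2 := by have := mul_nonneg (inv_nonneg.2 hN2p.le) hF2; linarith
    rwa [inv_mul_le_iff₀ hN1p, mul_comm] at this
  have b2 : F2 c ≤ 2 * N2 := by
    have : N2⁻¹ * F2 c ≤ 2 := by have := mul_nonneg (inv_nonneg.2 hN1p.le) hF1; linarith
    rwa [inv_mul_le_iff₀ hN2p, mul_comm] at this
  refine ⟨c, fun x => le_trans ?_ b1, le_trans ?_ b2⟩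
  · have : ((univ.filter fun x1 => hits (c x1) x < r).card : ℝ) = ∑ x1, ind (c x1) x := by
      simp [ind]
    rw [this]
    exact single_le_sum (f := fun x => exp (∑ x1, ind (c x1) x)) (fun _ _ => (exp_pos _).le)
      (mem_univ x)
  · refine sum_le_sum fun x _ => mul_le_mul_of_nonneg_left ?_ (hν x)
    split_ifs with h
    · obtain ⟨x1, hx1⟩ := h
      refine le_trans ?_ (single_le_sum (f := fun x1 => ind (c x1) x) (fun _ _ => hind0 _ _)
        (mem_univ x1))
      simp [ind, hx1]
    · exact sum_nonneg fun _ _ => hind0 _ _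

end Vale.Agent.P047
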