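import Vale.Agent.P047.Phases
import Vale.Agent.P047.Absorb
import Vale.Agent.P047.Refs
import Vale.Agent.P047.Kernel

namespace Vale.Agent.P047

open Finset Real

/-- coordinates of the absorbing part -/
abbrev J1 (g r : ℕ) : Type := Option (Fin g × Bool) × Fin r

/-- coordinates of the rows -/
abbrev J23 (n2 r m3 : ℕ) : Type := Fin n2 ⊕ (Fin r × Fin m3)

lemma card_J1 (g r : ℕ) : Fintype.card (J1 g r) = (2 * g + 1) * r := by
  simp [J1]; ring_nf; simp

lemma card_J23 (n2 r m3 : ℕ) : Fintype.card (J23 n2 r m3) = n2 + r * m3 := by simp [J23]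

lemma pow_le_exp_mul {x ℓ : ℝ} (h0 : 0 ≤ x) (h : x ≤ exp ℓ) (k : ℕ) : x ^ k ≤ exp (ℓ * k) := by
  calc x ^ k ≤ (exp ℓ) ^ k := pow_le_pow_left₀ h0 h k
    _ = _ := by rw [← exp_nat_mul, mul_comm]

lemma ite_none_eq {κ : Type*} [Fintype κ] [DecidableEq κ] (o : Option κ) :
    (if o = none then (1 : ℝ) else 0) = 1 - ∑ k, if o = some k then (1 : ℝ) else 0 := by
  cases o <;> simp

lemma col_mass {J J' J'' A : Type*} [Fintype J] [DecidableEq J] [Fintype J'] [DecidableEq J']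
    [Fintype J''] [DecidableEq J''] [Fintype A] (μ : A → ℝ) (hμ1 : ∑ a, μ a = 1)
    (G : (J' → A) → ℝ) :
    ∑ x : (J → A) × (J' ⊕ J'' → A), pw μ x.1 * pw μ x.2 * G (fun j => x.2 (Sum.inl j)) =
      ∑ x2, pw μ x2 * G x2 := by
  have e3 := Ex_sumType μ (fun (x2 : J' → A) (_ : J'' → A) => G x2)
  rw [Fintype.sum_prod_type]
  have e1 : ∀ x1 : J → A, ∑ y : J' ⊕ J'' → A, pw μ x1 * pw μ y * G (fun j => y (Sum.inl j))
      = pw μ x1 * ∑ x2, pw μ x2 * G x2 := by
    intro x1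
    have e2 : ∑ x2, pw μ x2 * G x2 = ∑ x : J' → A, ∑ y : J'' → A, pw μ x * pw μ y * G x := by
      refine sum_congr rfl fun x2 _ => ?_
      rw [← sum_mul, ← mul_sum, sum_pw hμ1, mul_one]
    rw [e2, ← e3]
    unfold Ex
    rw [mul_sum]
    exact sum_congr rfl fun y _ => by ring
  simp only [e1]
  rw [← sum_mul, sum_pw hμ1, one_mul]

lemma wt_cost {κ : Type*} [Fintype κ] (W cost : κ → ℝ) (cost0 C γ γ' h : ℝ) (p : κ → ℝ)
    (hW0 : ∀ k, 0 ≤ W k) (hW1 : ∑ k, W k = 1) (hc0 : ∀ k, 0 ≤ cost k) (hc : ∀ k, cost k ≤ C)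
    (hc00 : 0 ≤ cost0) (hc0C : cost0 ≤ C) (hγ' : 0 ≤ γ') (hγγ : γ' ≤ γ)
    (hMγ : Fintype.card κ * γ' ≤ γ) (hγ1 : (Fintype.card κ + 1) * γ ≤ 1)
    (hh : ∑ k, W k * cost k ≤ h)
    (hp : ∀ k, |p k - ((1 - (Fintype.card κ + 1) * γ) * W k + γ)| ≤ γ') :
    ∑ k, |p k| ≤ 1 ∧
      (1 - ∑ k, |p k|) * cost0 + ∑ k, |p k| * cost k ≤ h + 2 * (Fintype.card κ + 1) * γ * C := by
  have hγ : 0 ≤ γ := hγ'.trans hγγ
  have hC : 0 ≤ C := hc00.trans hc0C
  set M : ℝ := (Fintype.card κ : ℝ) with hM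
  have hM0 : 0 ≤ M := Nat.cast_nonneg _
  have hb : 0 ≤ 1 - (M + 1) * γ := by linarith
  have hp0 : ∀ k, 0 ≤ p k := by
    intro k
    have := (abs_le.1 (hp k)).1
    have := mul_nonneg hb (hW0 k)
    linarith
  simp only [fun k => abs_of_nonneg (hp0 k)]
  have hsum : ∑ k, ((1 - (M + 1) * γ) * W k + γ) = 1 - γ := by
    rw [sum_add_distrib, ← mul_sum, hW1]; simp [← hM]; ring
  have hup : ∑ k, p k ≤ 1 := by
    calc ∑ k, p k ≤ ∑ k, (((1 - (M + 1) * γ) * W k + γ) + γ') :=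
          sum_le_sum fun k _ => by have := (abs_le.1 (hp k)).2; linarith
      _ = 1 - γ + M * γ' := by rw [sum_add_distrib, hsum]; simp [← hM]
      _ ≤ 1 := by linarith
  have hlo : 1 - 2 * γ ≤ ∑ k, p k := by
    calc 1 - 2 * γ ≤ 1 - γ - M * γ' := by linarith
      _ = ∑ k, (((1 - (M + 1) * γ) * W k + γ) - γ') := by
          rw [sum_sub_distrib, hsum]; simp [← hM]
      _ ≤ _ := sum_le_sum fun k _ => by have := (abs_le.1 (hp k)).1; linarith
  refine ⟨hup, ?_⟩
  have h1 : (1 - ∑ k, p k) * cost0 ≤ 2 * γ * C :=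
    mul_le_mul (by linarith) hc0C hc00 (by positivity)
  have h2 : ∑ k, p k * cost k ≤ ∑ k, (W k * cost k + 2 * γ * C) := by
    refine sum_le_sum fun k _ => ?_
    have a1 : p k ≤ W k + 2 * γ := by
      have := (abs_le.1 (hp k)).2
      have := mul_nonneg (show 0 ≤ (M + 1) * γ by positivity) (hW0 k)
      nlinarith
    have a2 := mul_le_mul_of_nonneg_right a1 (hc0 k)
    have a3 := mul_le_mul_of_nonneg_left (hc k) (show 0 ≤ 2 * γ by positivity)
    nlinarith
  rw [sum_add_distrib] at h2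
  simp only [sum_const, card_univ, nsmul_eq_mul, ← hM] at h2
  nlinarith

set_option maxHeartbeats 800000 in
open Classical in
theorem reduce_core {A : Type} [Fintype A] [DecidableEq A] [Nonempty A] (μ v : A → ℝ)
    (hμ0 : ∀ a, 0 ≤ μ a) (hμ1 : ∑ a, μ a = 1) (Λ : ℝ) (hΛ : 0 < Λ) (hv : ∀ a, |v a| ≤ Λ)
    (g r n2 m3 m n : ℕ) (hn : n = (2 * g + 1) * r + (n2 + r * m3))
    (H1 : m + r ≤ r * m3) (H2 : n ≤ 4 * (m + 2)) (hn1 : 1 ≤ n) (p γ γ' lam : ℝ)
    (hp : exp (r - Fintype.card (Fin n2) / (2 * Fintype.card A)) ≤ p)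
    (hpX8 : 8 * (n : ℝ) ^ 2 * (p * Fintype.card (J1 g r → A)) ≤ 1)
    (hγ'0 : 0 < γ') (hγγ : γ' ≤ γ) (hMγ : ((m : ℝ) + 2) * γ' ≤ γ)
    (hγ8 : 8 * (n : ℝ) ^ 2 * ((((m : ℝ) + 2) + 1) * γ) ≤ 1) (hlam : 0 < lam)
    (hnum : 3 * (2 * Fintype.card ((J1 g r → A) × (J23 n2 r m3 → A)) *
      Fintype.card (Fin (m + 2))) ≤ exp (lam * γ' - lam ^ 2 / 2 *
        (((n2 : ℝ) + 1) ^ r * (r * exp (-(m3 / Fintype.card A))))))
    (htok : ∀ t1 t2 : ℕ,
      exp t1 ≤ 3 * Fintype.card (J23 n2 r m3 → A) * exp (2 * γ * Fintype.card (J1 g r → A)) →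
      exp t2 ≤ 2 * (Fintype.card (Fin n2 → A) * exp (2 * p * Fintype.card (J1 g r → A))) →
      t1 + t2 * (Fintype.card (Fin (m + 2)) * (1 + (Fintype.card (J23 n2 r m3) + 1) ^ r))
        ≤ 2 ^ g) :
    ∃ (F : (J1 g r ⊕ J23 n2 r m3 → A) → Option (Fin (m + 2))) (est : Option (Fin (m + 2)) → ℝ),
      (∀ o, (fun x => if F x = o then (1 : ℝ) else 0) ∈ Low (J1 g r ⊕ J23 n2 r m3) A (n - r)) ∧
      Ex (J1 g r ⊕ J23 n2 r m3) μ (fun x => (est (F x) - ∑ j, v (x j)) ^ 2) ≤ 484 * Λ ^ 2 := by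
  obtain ⟨W, t, ht, hW0, hW1, hW2, hWlow⟩ := kernel m
  set n1 : ℕ := (2 * g + 1) * r with hn1def
  have hnR : (1 : ℝ) ≤ n := by exact_mod_cast hn1
  obtain ⟨c, hc1, hc2⟩ := exists_refs (J := Fin n2) (X1 := J1 g r → A) r (pw μ) (pw_nonneg hμ0)
    (sum_pw hμ1) p hp
  have hγ0 : 0 < γ := hγ'0.trans_le hγγ
  have hγ1 : (((m : ℝ) + 2) + 1) * γ ≤ 1 := by
    have h0 : 0 ≤ (((m : ℝ) + 2) + 1) * γ := by positivity
    nlinarith
  have hγle : γ ≤ 1 := by
    have h0 : 0 ≤ ((m : ℝ) + 2) * γ := by positivity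
    nlinarith
  -- the fractional solution
  let s : (J1 g r → A) × (J23 n2 r m3 → A) → ℝ := fun x => ∑ j, v (x.1 j) + ∑ j, v (x.2 j)
  have hs : ∀ x, |s x| ≤ n * Λ := by
    intro x
    refine (abs_add_le _ _).trans ?_
    have a1 : |∑ j, v (x.1 j)| ≤ n1 * Λ := by
      refine (abs_sum_le_sum_abs _ _).trans ((sum_le_sum fun j _ => hv (x.1 j)).trans ?_)
      rw [sum_const, card_univ, card_J1, nsmul_eq_mul]
    have a2 : |∑ j, v (x.2 j)| ≤ (n2 + r * m3 : ℕ) * Λ := by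
      refine (abs_sum_le_sum_abs _ _).trans ((sum_le_sum fun j _ => hv (x.2 j)).trans ?_)
      rw [sum_const, card_univ, card_J23, nsmul_eq_mul]
    have : (n : ℝ) = n1 + (n2 + r * m3 : ℕ) := by rw [hn]; push_cast; ring
    rw [this]; linarith
  have hnΛ : 0 < n * Λ := by positivity
  have hu : ∀ x, |s x / (n * Λ)| ≤ 1 := by
    intro x
    rw [abs_div, abs_of_pos hnΛ, div_le_one hnΛ]; exact hs x
  let est : Option (Fin (m + 2)) → ℝ := fun o => o.elim 0 (fun k => n * Λ * t k)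
  have hest : ∀ o, |est o| ≤ n * Λ := by
    intro o
    cases o with
    | none => simpa [est] using hnΛ.le
    | some k =>
      simp only [est, Option.elim, abs_mul (n * Λ), abs_of_pos hnΛ]
      exact mul_le_of_le_one_right hnΛ.le (ht k)
  have hcost : ∀ x o, (est o - s x) ^ 2 ≤ 4 * (n * Λ) ^ 2 := by
    intro x o
    have a1 := abs_le.1 (hest o)
    have a2 := abs_le.1 (hs x)
    nlinarith
  let φ0 : (J1 g r → A) × (J23 n2 r m3 → A) → Fin (m + 2) → ℝ := fun x k =>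
    if Col r c (p2 x.2) then 0 else (1 - (((m : ℝ) + 2) + 1) * γ) * W k (s x / (n * Λ)) + γ
  let w : (J1 g r → A) × (J23 n2 r m3 → A) → ℝ := fun x => pw μ x.1 * pw μ x.2
  have hw0 : ∀ x, 0 ≤ w x := fun x => mul_nonneg (pw_nonneg hμ0 _) (pw_nonneg hμ0 _)
  have hw1 : ∑ x, w x = 1 := by
    rw [Fintype.sum_prod_type]
    simp only [w, ← mul_sum, sum_pw hμ1, mul_one]
  let a : (J1 g r → A) × (J23 n2 r m3 → A) → Option (Fin (m + 2)) → ℝ := fun x o =>
    if Col r c (p2 x.2) then 0 else w x * (est o - s x) ^ 2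
  obtain ⟨out, z, hzlow, hzout, hzB, hzcost⟩ := phases (κ := Fin (m + 2)) c (by omega) φ0 a
    (fun x => w x * (161 * Λ ^ 2)) γ' γ lam (161 * Λ ^ 2) (2 ^ g)
    (fun x1 k => by
      have a1 := low_comp (J := J23 n2 r m3) Sum.inl
        (low_top (fun x2 : Fin n2 → A => if Col r c x2 then (0 : ℝ) else 1))
      have a2 : (fun y : J23 n2 r m3 → A => s (x1, y) / (n * Λ)) ∈ Low (J23 n2 r m3) A 1 := by
        refine low_congr (low_smul (n * Λ)⁻¹ (low_add (low_const (∑ j, v (x1 j)))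
          (low_sum univ fun j _ => low_coord le_rfl j v))) fun y => ?_
        simp only [s]; field_simp
      have a3 := low_add (low_smul (1 - (((m : ℝ) + 2) + 1) * γ)
        (hWlow k _ _ _ a2 fun y => hu (x1, y))) (low_const γ)
      refine low_congr (low_mono ?_ (low_mul a1 a3)) fun y => ?_
      · rw [card_J23]; simp; omega
      · change _ = (if Col r c (p2 y) then (0 : ℝ) else 1) * _
        simp only [φ0]
        split_ifs <;> simp)
    (fun x hx k => by simp [φ0, hx])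
    (fun x hx k => by
      simp only [φ0, hx, if_false]
      have := mul_nonneg (show 0 ≤ 1 - (((m : ℝ) + 2) + 1) * γ by linarith)
        (hW0 k (s x / (n * Λ)))
      linarith)
    (fun x o => by
      simp only [a]
      split_ifs
      · exact le_rfl
      · exact mul_nonneg (hw0 x) (sq_nonneg _))
    (fun x => mul_nonneg (hw0 x) (by positivity)) (by positivity)
    (by rw [← sum_mul, hw1, one_mul])
    (fun x q hq => by
      by_cases hx : Col r c (p2 x.2)
      · have hsum : ∑ k, |q k| ≤ γ := by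
          calc ∑ k, |q k| ≤ ∑ _k : Fin (m + 2), γ' :=
                sum_le_sum fun k _ => by simpa [φ0, hx] using hq k
            _ = ((m : ℝ) + 2) * γ' := by simp
            _ ≤ γ := hMγ
        refine ⟨hsum.trans hγle, ?_, fun _ => hsum⟩
        simp only [a, hx, if_true, mul_zero, sum_const_zero]
        exact mul_nonneg (hw0 x) (by positivity)
      · have hh : ∑ k, W k (s x / (n * Λ)) * (est (some k) - s x) ^ 2 ≤ 160 * Λ ^ 2 := by
          have e : ∀ k, W k (s x / (n * Λ)) * (est (some k) - s x) ^ 2 =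
              (n * Λ) ^ 2 * (W k (s x / (n * Λ)) * (t k - s x / (n * Λ)) ^ 2) := by
            intro k
            simp only [est, Option.elim]
            field_simp
          simp only [e]
          rw [← mul_sum]
          refine (mul_le_mul_of_nonneg_left (hW2 _ (hu x)) (sq_nonneg _)).trans ?_
          have h4 : (n : ℝ) ≤ 4 * (m + 2) := by exact_mod_cast H2
          have h5 : (n : ℝ) ^ 2 ≤ 16 * (m + 2) ^ 2 := by nlinarith
          rw [mul_div_assoc', div_le_iff₀ (by positivity)]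
          nlinarith [sq_nonneg Λ]
        obtain ⟨b1, b2⟩ := wt_cost (fun k => W k (s x / (n * Λ)))
          (fun k => (est (some k) - s x) ^ 2) ((est none - s x) ^ 2) (4 * (n * Λ) ^ 2) γ γ'
          (160 * Λ ^ 2) q (fun k => hW0 k _) (hW1 _) (fun k => sq_nonneg _) (fun k => hcost x _)
          (sq_nonneg _) (hcost x _) hγ'0.le hγγ (by simpa using hMγ) (by simpa using hγ1) hh
          (fun k => by simpa [φ0, hx] using hq k)
        refine ⟨b1, ?_, fun h => absurd h hx⟩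
        simp only [a, hx, if_false, Fintype.sum_option, wt]
        have e : (1 - ∑ k, |q k|) * (w x * (est none - s x) ^ 2) +
            ∑ k, |q k| * (w x * (est (some k) - s x) ^ 2) =
            w x * ((1 - ∑ k, |q k|) * (est none - s x) ^ 2 +
              ∑ k, |q k| * (est (some k) - s x) ^ 2) := by
          rw [mul_add, mul_sum]
          congr 1
          · ring
          · exact sum_congr rfl fun k _ => by ring
        rw [e]
        refine mul_le_mul_of_nonneg_left (b2.trans ?_) (hw0 x)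
        simp only [Fintype.card_fin]
        push_cast
        nlinarith [sq_nonneg Λ])
    hlam hγ0.le (hγγ.trans hγle) hnum (fun t1 x2 ht1 => htok t1 _ ht1 (hc1 x2))
  have habs : ∀ y : J23 n2 r m3 → A, Col r c (p2 y) → ∃ F : (J1 g r → A) → Option (Fin (m + 2)),
      ∀ k, (fun x => (if F x = some k then (1 : ℝ) else 0) - z (x, y) k) ∈
        Low (J1 g r) A (Fintype.card (J1 g r) - r) :=
    fun y hy => absorb (fun x k => z (x, y) k) (hzB y hy)
  choose! Fy hFy using habs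
  let F' : (J1 g r → A) → (J23 n2 r m3 → A) → Option (Fin (m + 2)) := fun x1 y =>
    if Col r c (p2 y) then Fy y x1 else out (x1, y)
  have hr1 : r ≤ n1 := by rw [hn1def]; nlinarith
  have hsome : ∀ k, (fun x : J1 g r ⊕ J23 n2 r m3 → A =>
      if F' (fun j => x (Sum.inl j)) (fun j => x (Sum.inr j)) = some k then (1 : ℝ) else 0) ∈
      Low (J1 g r ⊕ J23 n2 r m3) A (n - r) := by
    intro k
    have b1 : ∀ x1 : J1 g r → A, (fun x : J1 g r ⊕ J23 n2 r m3 → A =>
        (if (fun j => x (Sum.inl j)) = x1 then (1 : ℝ) else 0) *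
          (z (x1, fun j => x (Sum.inr j)) k : ℝ)) ∈ Low (J1 g r ⊕ J23 n2 r m3) A (n - r) := by
      intro x1
      refine low_mono ?_ (low_mul (low_comp Sum.inl
        (low_top (fun x : J1 g r → A => if x = x1 then (1 : ℝ) else 0)))
        (low_comp Sum.inr (hzlow x1 k)))
      rw [card_J1, card_J23]; omega
    have b2 : ∀ y ∈ univ.filter (fun y : J23 n2 r m3 → A => Col r c (p2 y)),
        (fun x : J1 g r ⊕ J23 n2 r m3 → A =>
        ((if Fy y (fun j => x (Sum.inl j)) = some k then (1 : ℝ) else 0) -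
          z (fun j => x (Sum.inl j), y) k) *
          (if (fun j => x (Sum.inr j)) = y then (1 : ℝ) else 0)) ∈
          Low (J1 g r ⊕ J23 n2 r m3) A (n - r) := by
      intro y hy
      refine low_mono ?_ (low_mul (low_comp Sum.inl (hFy y (mem_filter.1 hy).2 k))
        (low_comp Sum.inr (low_top (fun x : J23 n2 r m3 → A => if x = y then (1 : ℝ) else 0))))
      rw [card_J1, card_J23]; omega
    refine low_congr (low_add (low_sum univ fun x1 _ => b1 x1) (low_sum _ b2)) fun x => ?_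
    simp only [ite_mul, one_mul, zero_mul, sum_ite_eq, mem_univ, if_true, mul_ite, mul_one,
      mul_zero, mem_filter, true_and, F']
    by_cases hx : Col r c (p2 fun j => x (Sum.inr j))
    · simp only [hx, if_true]; ring
    · simp only [hx, if_false, add_zero]
      exact (hzout (_, _) hx k).symm
  refine ⟨fun x => F' (fun j => x (Sum.inl j)) (fun j => x (Sum.inr j)), est, fun o => ?_, ?_⟩
  · cases o with
    | some k => exact hsome k
    | none =>
      refine low_congr (low_sub (low_const 1) (low_sum univ fun k _ => hsome k)) fun x => ?_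
      exact ite_none_eq _
  · have e := Ex_sumType μ (fun (x1 : J1 g r → A) (y : J23 n2 r m3 → A) =>
      (est (F' x1 y) - s (x1, y)) ^ 2)
    simp only [Fintype.sum_sum_type (α₁ := J1 g r)]
    refine le_trans (le_of_eq e) ?_
    rw [← Fintype.sum_prod_type']
    have hsplit : ∀ x : (J1 g r → A) × (J23 n2 r m3 → A),
        pw μ x.1 * pw μ x.2 * (est (F' x.1 x.2) - s (x.1, x.2)) ^ 2 ≤
        (if Col r c (p2 x.2) then 0 else a x (out x)) +
          4 * (n * Λ) ^ 2 * (w x * if Col r c (p2 x.2) then 1 else 0) := by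
      intro x
      by_cases hx : Col r c (p2 x.2)
      · simp only [hx, if_true, zero_add, mul_one]
        rw [mul_comm (4 * _)]
        exact mul_le_mul_of_nonneg_left (hcost _ _) (hw0 x)
      · simp [hx, a, F', w]
    refine (sum_le_sum fun x _ => hsplit x).trans ?_
    rw [sum_add_distrib, ← mul_sum]
    have hcolmass : ∑ x : (J1 g r → A) × (J23 n2 r m3 → A),
        (w x * if Col r c (p2 x.2) then 1 else 0) ≤ 2 * (p * Fintype.card (J1 g r → A)) := by
      refine le_trans (le_of_eq ?_) hc2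
      refine Eq.trans (col_mass μ hμ1 (fun x2 => if Col r c x2 then (1 : ℝ) else 0)) ?_
      refine sum_congr rfl fun x2 _ => ?_
      by_cases hx : Col r c x2
      · rw [if_pos hx, if_pos (show ∃ x1, hits (c x1) x2 < r from hx)]
      · rw [if_neg hx, if_neg (show ¬ ∃ x1, hits (c x1) x2 < r from hx)]
    have : 4 * (n * Λ) ^ 2 * (2 * (p * Fintype.card (J1 g r → A))) ≤ Λ ^ 2 := by
      nlinarith [sq_nonneg Λ]
    have h4 := mul_le_mul_of_nonneg_left hcolmass (show 0 ≤ 4 * (n * Λ) ^ 2 by positivity)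
    linarith

set_option maxHeartbeats 800000 in
/-- The degree-reduction step: a partition of a product space into parts of junta-degree
`n - r` that still determines the sum of the symbol values up to a bounded error. -/
theorem reduce {A : Type} [Fintype A] [DecidableEq A] [Nonempty A] (μ v : A → ℝ)
    (hμ0 : ∀ a, 0 ≤ μ a) (hμ1 : ∑ a, μ a = 1) (Λ : ℝ) (hΛ : 0 < Λ) (hv : ∀ a, |v a| ≤ Λ)
    (g r n2 m3 m n : ℕ) (ℓ : ℝ) (hn : n = (2 * g + 1) * r + (n2 + r * m3))
    (H1 : m + r ≤ r * m3) (H2 : n ≤ 4 * (m + 2)) (hn1 : 1 ≤ n)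
    (hK : (Fintype.card A : ℝ) ≤ exp ℓ) (hnℓ : (n : ℝ) + 3 ≤ exp ℓ) (hℓ : 3 ≤ ℓ)
    (H3 : ℓ * ((2 * g + 1) * r : ℕ) + r + 2 * ℓ + 3 ≤ n2 / (2 * Fintype.card A))
    (H4 : 2 * (ℓ * ((2 * g + 1) * r : ℕ) + 4 * ℓ + 3) + ℓ * (r + 1) + 2 * ℓ ≤
      m3 / Fintype.card A)
    (H5 : ℓ * (r + 4) ≤ g / 2) :
    ∃ (F : (J1 g r ⊕ J23 n2 r m3 → A) → Option (Fin (m + 2))) (est : Option (Fin (m + 2)) → ℝ),
      (∀ o, (fun x => if F x = o then (1 : ℝ) else 0) ∈ Low (J1 g r ⊕ J23 n2 r m3) A (n - r)) ∧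
      Ex (J1 g r ⊕ J23 n2 r m3) μ (fun x => (est (F x) - ∑ j, v (x j)) ^ 2) ≤ 484 * Λ ^ 2 := by
  set n1 : ℕ := (2 * g + 1) * r with hn1def
  have hK0 : (0 : ℝ) < Fintype.card A := by exact_mod_cast Fintype.card_pos
  have hnR : (1 : ℝ) ≤ n := by exact_mod_cast hn1
  have hn1R : (0 : ℝ) ≤ n1 := Nat.cast_nonneg _
  have hX1 : (Fintype.card (J1 g r → A) : ℝ) ≤ exp (ℓ * n1) := by
    rw [Fintype.card_fun, card_J1]; push_cast
    exact pow_le_exp_mul hK0.le hK _
  have hX1p : (0 : ℝ) < Fintype.card (J1 g r → A) := by exact_mod_cast Fintype.card_pos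
  have hY : (Fintype.card (J23 n2 r m3 → A) : ℝ) ≤ exp (ℓ * n) := by
    rw [Fintype.card_fun, card_J23]; push_cast
    refine (pow_le_exp_mul hK0.le hK _).trans (exp_le_exp.2 ?_)
    refine mul_le_mul_of_nonneg_left ?_ (by linarith)
    exact_mod_cast (by omega : n2 + r * m3 ≤ n)
  have hX2 : (Fintype.card (Fin n2 → A) : ℝ) ≤ exp (ℓ * n) := by
    rw [Fintype.card_fun, Fintype.card_fin]; push_cast
    refine (pow_le_exp_mul hK0.le hK _).trans (exp_le_exp.2 ?_)
    refine mul_le_mul_of_nonneg_left ?_ (by linarith)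
    exact_mod_cast (by omega : n2 ≤ n)
  have hX : (Fintype.card ((J1 g r → A) × (J23 n2 r m3 → A)) : ℝ) ≤ exp (ℓ * n) := by
    rw [Fintype.card_prod, Fintype.card_fun, Fintype.card_fun, card_J1, card_J23, ← pow_add, ← hn]
    push_cast
    exact pow_le_exp_mul hK0.le hK _
  have hM : ((m : ℝ) + 2) + 1 ≤ exp ℓ := by
    have : (m : ℝ) ≤ n := by exact_mod_cast (by omega : m ≤ n)
    linarith
  have he3 : (8 : ℝ) ≤ exp 3 := by
    have h1 := add_one_le_exp (1 : ℝ)
    have : exp 3 = exp 1 ^ 3 := by rw [← exp_nat_mul]; norm_num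
    rw [this]
    calc (8 : ℝ) = 2 ^ 3 := by norm_num
      _ ≤ _ := pow_le_pow_left₀ (by norm_num) (by linarith) 3
  have hn2 : (n : ℝ) ^ 2 ≤ exp (ℓ * 2) := by
    have := pow_le_exp_mul (x := (n : ℝ)) (by linarith) (show (n : ℝ) ≤ exp ℓ by linarith) 2
    simpa using this
  have h2ℓ : 2 * ℓ ≤ exp ℓ := by
    have := quadratic_le_exp_of_nonneg (show 0 ≤ ℓ by linarith)
    nlinarith [sq_nonneg (ℓ - 1)]
  have hℓn : 2 * (ℓ * n + ℓ + 4) ≤ exp (2 * ℓ) := by
    have : exp (2 * ℓ) = exp ℓ * exp ℓ := by rw [← exp_add]; ring_nf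
    rw [this]
    calc 2 * (ℓ * n + ℓ + 4) ≤ (2 * ℓ) * (n + 3) := by nlinarith
      _ ≤ _ := mul_le_mul h2ℓ hnℓ (by linarith) (exp_pos _).le
  -- references
  set p : ℝ := exp (r - Fintype.card (Fin n2) / (2 * Fintype.card A)) with hpdef
  have hpX : p * Fintype.card (J1 g r → A) ≤ exp (-(ℓ * 2) - 3) := by
    calc p * Fintype.card (J1 g r → A) ≤ p * exp (ℓ * n1) :=
          mul_le_mul_of_nonneg_left hX1 (exp_pos _).le
      _ = exp (r - n2 / (2 * Fintype.card A) + ℓ * n1) := by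
          rw [hpdef, ← exp_add, Fintype.card_fin]
      _ ≤ _ := exp_le_exp.2 (by linarith)
  have hpX1 : p * Fintype.card (J1 g r → A) ≤ 1 :=
    hpX.trans (exp_le_one_iff.2 (by linarith))
  have hpX8 : 8 * (n : ℝ) ^ 2 * (p * Fintype.card (J1 g r → A)) ≤ 1 := by
    calc 8 * (n : ℝ) ^ 2 * (p * Fintype.card (J1 g r → A))
        ≤ exp 3 * exp (ℓ * 2) * exp (-(ℓ * 2) - 3) := by gcongr
      _ = 1 := by rw [← exp_add, ← exp_add, exp_eq_one_iff]; ring
  -- margins
  set γ : ℝ := exp (-(ℓ * n1 + 3 * ℓ + 3)) with hγdef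
  set γ' : ℝ := exp (-(ℓ * n1 + 4 * ℓ + 3)) with hγ'def
  have hℓn1 : 0 ≤ ℓ * n1 := mul_nonneg (by linarith) hn1R
  have hγ0 : 0 < γ := exp_pos _
  have hγ'0 : 0 < γ' := exp_pos _
  have hγγ : γ' ≤ γ := exp_le_exp.2 (by linarith)
  have hγ'1 : γ' ≤ 1 := exp_le_one_iff.2 (by linarith)
  have hMγ : ((m : ℝ) + 2) * γ' ≤ γ := by
    calc ((m : ℝ) + 2) * γ' ≤ exp ℓ * γ' := by gcongr; linarith
      _ = γ := by rw [hγdef, hγ'def, ← exp_add]; ring_nf
  have hγX : γ * Fintype.card (J1 g r → A) ≤ 1 := by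
    calc γ * Fintype.card (J1 g r → A) ≤ γ * exp (ℓ * n1) := by gcongr
      _ = exp (-(3 * ℓ + 3)) := by rw [hγdef, ← exp_add]; ring_nf
      _ ≤ 1 := exp_le_one_iff.2 (by linarith)
  have hγ8 : 8 * (n : ℝ) ^ 2 * ((((m : ℝ) + 2) + 1) * γ) ≤ 1 := by
    calc 8 * (n : ℝ) ^ 2 * ((((m : ℝ) + 2) + 1) * γ)
        ≤ exp 3 * exp (ℓ * 2) * (exp ℓ * γ) := by gcongr
      _ = exp (-(ℓ * n1)) := by rw [hγdef, ← exp_add, ← exp_add, ← exp_add]; ring_nf
      _ ≤ 1 := exp_le_one_iff.2 (by linarith)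
  have hγ1 : (((m : ℝ) + 2) + 1) * γ ≤ 1 := by
    have h0 : 0 ≤ (((m : ℝ) + 2) + 1) * γ := by positivity
    nlinarith
  set S : ℝ := exp (ℓ * (r + 1) - m3 / Fintype.card A) with hSdef
  have hS0 : 0 < S := exp_pos _
  have hσ : ((n2 : ℝ) + 1) ^ r * (r * exp (-(m3 / Fintype.card A))) ≤ S := by
    have a1 : ((n2 : ℝ) + 1) ^ r ≤ exp (ℓ * r) := by
      refine pow_le_exp_mul (by positivity) ?_ r
      have : (n2 : ℝ) ≤ n := by exact_mod_cast (by omega : n2 ≤ n)
      linarith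
    have a2 : (r : ℝ) ≤ exp ℓ := by
      have : (r : ℝ) ≤ n := by exact_mod_cast (by omega : r ≤ n)
      linarith
    calc _ ≤ exp (ℓ * r) * (exp ℓ * exp (-(m3 / Fintype.card A))) := by gcongr
      _ = S := by rw [hSdef, ← exp_add, ← exp_add]; ring_nf
  exact reduce_core μ v hμ0 hμ1 Λ hΛ hv g r n2 m3 m n hn H1 H2 hn1 p γ γ' (γ' / S) le_rfl hpX8
    hγ'0 hγγ hMγ hγ8 (by positivity)
    (by
      have a1 : γ' ^ 2 / (2 * S) ≤ γ' / S * γ' - (γ' / S) ^ 2 / 2 *
          (((n2 : ℝ) + 1) ^ r * (r * exp (-(m3 / Fintype.card A)))) := by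
        have := mul_le_mul_of_nonneg_left hσ (show 0 ≤ (γ' / S) ^ 2 / 2 by positivity)
        have e : γ' / S * γ' - (γ' / S) ^ 2 / 2 * S = γ' ^ 2 / (2 * S) := by field_simp; ring
        linarith
      have a2 : ℓ * n + ℓ + 4 ≤ γ' ^ 2 / (2 * S) := by
        rw [le_div_iff₀ (by positivity)]
        calc (ℓ * n + ℓ + 4) * (2 * S) = 2 * (ℓ * n + ℓ + 4) * S := by ring
          _ ≤ exp (2 * ℓ) * S := by gcongr
          _ ≤ γ' ^ 2 := by
            rw [hSdef, hγ'def, ← exp_add, ← exp_nat_mul]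
            refine exp_le_exp.2 ?_
            push_cast at H4 ⊢
            linarith
      refine le_trans ?_ (exp_le_exp.2 (a2.trans a1))
      simp only [Fintype.card_fin]
      push_cast
      calc 3 * (2 * (Fintype.card ((J1 g r → A) × (J23 n2 r m3 → A)) : ℝ) * (m + 2))
          = 6 * (Fintype.card ((J1 g r → A) × (J23 n2 r m3 → A)) : ℝ) * (m + 2) := by ring
        _ ≤ exp 3 * exp (ℓ * n) * exp ℓ := by gcongr <;> linarith
        _ ≤ _ := by rw [← exp_add, ← exp_add]; exact exp_le_exp.2 (by linarith))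
    (fun t1 t2 ht1 ht2 => by
      have e2 : exp (2 : ℝ) ≥ 3 := by have := add_one_le_exp (2 : ℝ); linarith
      have a1 : (t1 : ℝ) ≤ ℓ * n + ℓ + 4 := by
        refine exp_le_exp.1 (ht1.trans ?_)
        calc _ ≤ exp 2 * exp (ℓ * n) * exp 2 := by
              gcongr
              linarith
          _ ≤ _ := by rw [← exp_add, ← exp_add]; exact exp_le_exp.2 (by linarith)
      have a2 : (t2 : ℝ) ≤ ℓ * n + ℓ + 4 := by
        refine exp_le_exp.1 (ht2.trans ?_)
        calc _ ≤ exp 2 * (exp (ℓ * n) * exp 2) := by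
              gcongr
              · linarith
              · linarith
          _ ≤ _ := by rw [← exp_add, ← exp_add]; exact exp_le_exp.2 (by linarith)
      have a3 : ((Fintype.card (J23 n2 r m3) : ℝ) + 1) ^ r ≤ exp (ℓ * r) := by
        refine pow_le_exp_mul (by positivity) ?_ r
        have : (Fintype.card (J23 n2 r m3) : ℝ) ≤ n := by
          rw [card_J23]; exact_mod_cast (by omega : n2 + r * m3 ≤ n)
        linarith
      have a4 : exp (g / 2 : ℝ) ≤ 2 ^ g := by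
        have : exp (1 / 2 : ℝ) ≤ 2 := by
          have h1 : exp (1 / 2 : ℝ) ^ 2 = exp 1 := by rw [← exp_nat_mul]; norm_num
          have h2 := exp_one_lt_d9
          nlinarith [exp_pos (1 / 2 : ℝ)]
        calc exp (g / 2 : ℝ) = exp (1 / 2 : ℝ) ^ g := by rw [← exp_nat_mul]; ring_nf
          _ ≤ _ := pow_le_pow_left₀ (exp_pos _).le this g
      have a5 : (1 : ℝ) ≤ exp (ℓ * r) := one_le_exp (by positivity)
      have a6 : (1 : ℝ) ≤ exp ℓ := one_le_exp (by positivity)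
      have a7 : (3 : ℝ) ≤ exp ℓ := by linarith
      have hfin : (t1 : ℝ) + (t2 : ℝ) *
          (((m : ℝ) + 2) * (1 + ((Fintype.card (J23 n2 r m3) : ℝ) + 1) ^ r)) ≤ 2 ^ g := by
        calc _ ≤ exp (2 * ℓ) + exp (2 * ℓ) * (exp ℓ * (exp (ℓ * r) + exp (ℓ * r))) := by
              gcongr <;> linarith
          _ ≤ exp (2 * ℓ) * (exp ℓ * exp (ℓ * r)) * 3 := by
              have b1 : (1 : ℝ) ≤ exp ℓ * exp (ℓ * r) := one_le_mul_of_one_le_of_one_le a6 a5
              nlinarith [exp_pos (2 * ℓ)]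
          _ ≤ exp (2 * ℓ) * (exp ℓ * exp (ℓ * r)) * exp ℓ := by gcongr
          _ = exp (ℓ * (r + 4)) := by rw [← exp_add, ← exp_add, ← exp_add]; ring_nf
          _ ≤ exp (g / 2) := exp_le_exp.2 H5
          _ ≤ _ := a4
      rw [Fintype.card_fin]
      exact_mod_cast hfin)

end Vale.Agent.P047
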