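import Vale.Agent.P047.Quant
import Vale.Agent.P047.Reduce

namespace Vale.Agent.P047

open Finset Real

lemma exp_200 : (10 : ℝ) ^ 80 ≤ exp 200 := by
  have h1 : (2.7 : ℝ) ≤ exp 1 := by have := exp_one_gt_d9; linarith
  calc (10 : ℝ) ^ 80 ≤ 2.7 ^ 200 := by norm_num
    _ ≤ (exp 1) ^ 200 := pow_le_pow_left₀ (by norm_num) h1 200
    _ = exp 200 := by rw [← exp_nat_mul]; norm_num

lemma delta_le (K : ℕ) (hK : K = 10 ^ 34) :
    8 * (200 : ℝ) ^ 2 / K ^ 2 + 24 * exp (-200) ≤ 4 / 10 ^ 63 := by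
  have h1 : exp (-200 : ℝ) ≤ 1 / 10 ^ 80 := by
    rw [exp_neg, ← one_div]
    exact one_div_le_one_div_of_le (by positivity) exp_200
  have h2 : (K : ℝ) = 10 ^ 34 := by rw [hK]; norm_num
  rw [h2]
  have : 8 * (200 : ℝ) ^ 2 / (10 ^ 34) ^ 2 + 24 * (1 / 10 ^ 80) ≤ 4 / 10 ^ 63 := by norm_num
  linarith

lemma reduce_num (K : ℕ) (hK : K = 10 ^ 34) :
    ∃ (n r : ℕ) (J : Type) (_ : Fintype J) (_ : DecidableEq J), Fintype.card J = n ∧ r < n ∧
      (n : ℝ) ≤ 2 * 10 ^ 70 ∧ (r : ℝ) = 10 ^ 10 ∧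
      ∀ (μ v : Fin K → ℝ), (∀ a, 0 ≤ μ a) → ∑ a, μ a = 1 → ∀ Λ : ℝ, 0 < Λ → (∀ a, |v a| ≤ Λ) →
        ∃ (A' : Type) (_ : Fintype A') (_ : DecidableEq A') (F : (J → Fin K) → A') (est : A' → ℝ),
          (∀ o, (fun x => if F x = o then (1 : ℝ) else 0) ∈ Low J (Fin K) (n - r)) ∧
          Ex J μ (fun x => (est (F x) - ∑ j, v (x j)) ^ 2) ≤ 484 * Λ ^ 2 := by
  obtain ⟨g, hg⟩ : ∃ g : ℕ, g = 10 ^ 13 := ⟨_, rfl⟩
  obtain ⟨r, hr⟩ : ∃ r : ℕ, r = 10 ^ 10 := ⟨_, rfl⟩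
  obtain ⟨n2, hn2⟩ : ∃ n2 : ℕ, n2 = 10 ^ 60 := ⟨_, rfl⟩
  obtain ⟨m, hm⟩ : ∃ m : ℕ, m = 10 ^ 70 - 10 ^ 10 := ⟨_, rfl⟩
  obtain ⟨n, hn⟩ : ∃ n : ℕ, n = (2 * g + 1) * r + (n2 + r * n2) := ⟨_, rfl⟩
  have hnv : n = (2 * 10 ^ 13 + 1) * 10 ^ 10 + (10 ^ 60 + 10 ^ 10 * 10 ^ 60) := by
    rw [hn, hg, hr, hn2]
  have hnR : (n : ℝ) = (2 * 10 ^ 13 + 1) * 10 ^ 10 + (10 ^ 60 + 10 ^ 10 * 10 ^ 60) := by
    rw [hnv]; norm_num
  have hKR : (Fintype.card (Fin K) : ℝ) = 10 ^ 34 := by rw [Fintype.card_fin, hK]; norm_num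
  have : Nonempty (Fin K) := ⟨⟨0, by rw [hK]; norm_num⟩⟩
  refine ⟨n, r, J1 g r ⊕ J23 n2 r n2, inferInstance, inferInstance, ?_, ?_, ?_, ?_, ?_⟩
  · rw [Fintype.card_sum, card_J1, card_J23, hn]
  · rw [hnv, hr]; norm_num
  · rw [hnR]; norm_num
  · rw [hr]; norm_num
  · intro μ v hμ0 hμ1 Λ hΛ hv
    have he := exp_200
    obtain ⟨F, est, h1, h2⟩ := reduce μ v hμ0 hμ1 Λ hΛ hv g r n2 n2 m n 200 hn
      (by rw [hm, hr, hn2]; norm_num) (by rw [hnv, hm]; norm_num) (by rw [hnv]; norm_num)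
      (by rw [hKR]; exact le_trans (by norm_num) he)
      (by rw [hnR]; exact le_trans (by norm_num) he) (by norm_num)
      (by rw [hKR, hg, hr, hn2]; norm_num) (by rw [hKR, hg, hr, hn2]; norm_num)
      (by rw [hg, hr]; norm_num)
    exact ⟨_, inferInstance, inferInstance, F, est, h1, h2⟩

/-- there is a source whose variance is at least `ρ` times its degree -/
def Good (ρ : ℝ) : Prop :=
  ∃ (A : Type) (_ : Fintype A) (_ : DecidableEq A) (μ m : A → ℝ) (D : ℕ),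
    0 < D ∧ Src A μ m D ∧ ρ * D ≤ ∑ a, μ a * m a ^ 2

/-- a balanced Boolean function of degree at most `D` with linear sum `S` -/
def Bal (S : ℝ) (D : ℕ) : Prop := Src Bool half (fun b => S * sg b) D

lemma bal_one : Bal 1 1 := by
  refine ⟨Unit, inferInstance, inferInstance, fun z => z (), fun a => ?_, fun a => ?_, fun a => ?_⟩
  · exact low_coord le_rfl () (fun b => if b = a then (1 : ℝ) else 0)
  · rw [Ex_coord sum_half () (fun b => if b = a then (1 : ℝ) else 0)]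
    simp
  · have : ∀ z : Unit → Bool, (if z () = a then ∑ i, sg (z i) else 0) =
        (fun b => if b = a then sg b else 0) (z ()) := by
      intro z; simp
    rw [Ex_congr half this, Ex_coord sum_half () (fun b => if b = a then sg b else 0)]
    cases a <;> simp

lemma good_one : Good 1 :=
  ⟨Bool, inferInstance, inferInstance, half, _, 1, one_pos, bal_one, by
    simp [half, sg]⟩

lemma good_step : ∃ κ : ℝ, 1 < κ ∧ ∀ ρ, 0 < ρ → Good ρ → Good (κ * ρ) := by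
  obtain ⟨K, hK⟩ : ∃ K : ℕ, K = 10 ^ 34 := ⟨_, rfl⟩
  obtain ⟨n, r, J, i1, i2, hJ, hrn, hn, hr, hred⟩ := reduce_num K hK
  have hnr : (0 : ℝ) < n - r := by
    have : (r : ℝ) < n := by exact_mod_cast hrn
    linarith
  refine ⟨(n - r / 2) / (n - r), ?_, ?_⟩
  · rw [lt_div_iff₀ hnr]; linarith
  rintro ρ hρ ⟨A, j1, j2, μ, m, D, hD, hS, hV⟩
  have hDR : (0 : ℝ) < D := by exact_mod_cast hD
  have hV0 : 0 < ∑ a, μ a * m a ^ 2 := lt_of_lt_of_le (by positivity) hV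
  obtain ⟨n', μ', m', v, U, hn', hU, hS', hv, herr, hVU⟩ :=
    quant hS hV0 K (by rw [hK]; norm_num) 200 (by norm_num)
  have hn'R : (0 : ℝ) < n' := by exact_mod_cast hn'
  have hU0 : 0 < U := by rw [hU]; positivity
  have hδ := mul_le_mul_of_nonneg_right (delta_le K hK) hU0.le
  have hE0 : 0 ≤ ∑ k, μ' k * (v k - m' k) ^ 2 :=
    sum_nonneg fun k _ => mul_nonneg (hS'.nonneg k) (sq_nonneg _)
  set vb : ℝ := ∑ k, μ' k * v k with hvb
  have hΛ : 0 < 200 * √U := by positivity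
  have hv1 : ∀ k, |v k| ≤ 200 * √U := by
    intro k
    apply abs_le_of_sq_le_sq' _ hΛ.le |> abs_le.2
    rw [mul_pow, sq_sqrt hU0.le]; exact hv k
  have hvb1 : |vb| ≤ 200 * √U := by
    calc |vb| ≤ ∑ k, |μ' k * v k| := abs_sum_le_sum_abs _ _
      _ ≤ ∑ k, μ' k * (200 * √U) := sum_le_sum fun k _ => by
          rw [abs_mul, abs_of_nonneg (hS'.nonneg k)]
          exact mul_le_mul_of_nonneg_left (hv1 k) (hS'.nonneg k)
      _ = _ := by rw [← sum_mul, hS'.sum_one, one_mul]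
  obtain ⟨A', k1, k2, F, est, hF, hcost⟩ := hred μ' (fun k => v k - vb) hS'.nonneg hS'.sum_one
    (400 * √U) (by positivity) (fun k => (abs_sub _ _).trans (by linarith [hv1 k]))
  have hS'' := hS'.comp F hF
  refine ⟨A', k1, k2, _, _, _, Nat.mul_pos (by omega) (Nat.mul_pos hn' hD), hS'', ?_⟩
  have e := push_err hS'.nonneg m' F est
  rw [Ex_sum_sq hS'.sum_one m' hS'.mean_zero, hJ] at e
  have hpos : 0 ≤ ∑ a, pmu μ' F a * (est a - pm μ' m' F a) ^ 2 :=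
    sum_nonneg fun a _ => mul_nonneg (pmu_nonneg hS'.nonneg F a) (sq_nonneg _)
  have hmean : ∑ k, μ' k * (v k - vb - m' k) = 0 := by
    simp only [mul_sub, sum_sub_distrib, ← sum_mul, hS'.sum_one, hS'.mean_zero]
    rw [← hvb]; ring
  have hvar : ∑ k, μ' k * (v k - vb - m' k) ^ 2 ≤ ∑ k, μ' k * (v k - m' k) ^ 2 := by
    have : ∑ k, μ' k * (v k - m' k) ^ 2 = ∑ k, μ' k * (v k - vb - m' k) ^ 2 +
        2 * vb * ∑ k, μ' k * (v k - vb - m' k) + vb ^ 2 * ∑ k, μ' k := by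
      rw [mul_sum univ _ (2 * vb), mul_sum univ _ (vb ^ 2), ← sum_add_distrib, ← sum_add_distrib]
      exact sum_congr rfl fun k _ => by ring
    rw [this, hmean, hS'.sum_one]
    nlinarith [sq_nonneg vb]
  have herr2 : Ex J μ' (fun x => (est (F x) - ∑ j, m' (x j)) ^ 2) ≤
      2 * (484 * (400 * √U) ^ 2) + 2 * (n * ∑ k, μ' k * (v k - vb - m' k) ^ 2) := by
    have h1 := Ex_sum_sq (J := J) hS'.sum_one (fun k => v k - vb - m' k) hmean
    rw [hJ] at h1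
    rw [← h1]
    refine le_trans (Ex_mono hS'.nonneg (G := fun x => 2 * (est (F x) - ∑ j, (v (x j) - vb)) ^ 2 +
      2 * (∑ j, (v (x j) - vb - m' (x j))) ^ 2) fun x => ?_) ?_
    · rw [sum_sub_distrib (fun j => v (x j) - vb)]
      nlinarith [sq_nonneg (est (F x) - ∑ j, (v (x j) - vb) -
        (∑ j, (v (x j) - vb) - ∑ j, m' (x j)))]
    · rw [Ex_add, Ex_smul, Ex_smul]
      linarith
  rw [mul_pow, sq_sqrt hU0.le] at herr2
  have hn0 : (0 : ℝ) ≤ n := Nat.cast_nonneg n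
  have b1 : n * ∑ k, μ' k * (v k - vb - m' k) ^ 2 ≤ n * (4 / 10 ^ 63 * U) :=
    mul_le_mul_of_nonneg_left (by linarith) hn0
  have b2 : n * (U - 4 / 10 ^ 63 * U) ≤ n * ∑ k, μ' k * m' k ^ 2 :=
    mul_le_mul_of_nonneg_left (by linarith) hn0
  have b3 : n * (4 / 10 ^ 63 * U) ≤ 2 * 10 ^ 70 * (4 / 10 ^ 63 * U) :=
    mul_le_mul_of_nonneg_right hn (by positivity)
  have b4 : (n - r / 2) * U ≤ ∑ a, pmu μ' F a * pm μ' m' F a ^ 2 := by
    rw [hr]; nlinarith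
  refine le_trans ?_ b4
  have b5 : ρ * (n' * D) ≤ U := by
    rw [hU]; nlinarith
  push_cast [Nat.cast_sub hrn.le]
  have : (n - r / 2) / (n - r) * ρ * ((n - r) * (n' * D)) = (n - r / 2) * (ρ * (n' * D)) := by
    field_simp
  rw [this]
  exact mul_le_mul_of_nonneg_left b5 (by linarith)

lemma good_all (ρ : ℝ) : Good ρ := by
  obtain ⟨κ, hκ, hstep⟩ := good_step
  have h : ∀ j : ℕ, Good (κ ^ j) := by
    intro j
    induction j with
    | zero => simpa using good_one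
    | succ j ih => rw [pow_succ']; exact hstep _ (by positivity) ih
  obtain ⟨j, hj⟩ := pow_unbounded_of_one_lt ρ hκ
  obtain ⟨A, j1, j2, μ, m, D, hD, hS, hV⟩ := h j
  exact ⟨A, j1, j2, μ, m, D, hD, hS,
    le_trans (mul_le_mul_of_nonneg_right hj.le (Nat.cast_nonneg D)) hV⟩

end Vale.Agent.P047
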