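import Mathlib

namespace Vale.Agent.P047

open Finset

/-- The span of the real functions on `J → A` that depend on at most `d` coordinates. -/
def Low (J A : Type*) (d : ℕ) : Submodule ℝ ((J → A) → ℝ) :=
  Submodule.span ℝ
    {g | ∃ S : Finset J, S.card ≤ d ∧ ∀ x y : J → A, (∀ j ∈ S, x j = y j) → g x = g y}

variable {J J' A : Type*}

lemma low_of_dep {d : ℕ} {g : (J → A) → ℝ} (S : Finset J) (hS : S.card ≤ d)
    (h : ∀ x y : J → A, (∀ j ∈ S, x j = y j) → g x = g y) : g ∈ Low J A d :=
  Submodule.subset_span ⟨S, hS, h⟩

lemma low_induction {d : ℕ} {P : ((J → A) → ℝ) → Prop}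
    (hgen : ∀ g : (J → A) → ℝ, ∀ S : Finset J, S.card ≤ d →
      (∀ x y : J → A, (∀ j ∈ S, x j = y j) → g x = g y) → P g)
    (h0 : P (fun _ => 0))
    (hadd : ∀ f g, P f → P g → P (fun x => f x + g x))
    (hsmul : ∀ (c : ℝ) f, P f → P (fun x => c * f x))
    {g : (J → A) → ℝ} (hg : g ∈ Low J A d) : P g := by
  induction hg using Submodule.span_induction with
  | mem g hg => obtain ⟨S, hS, h⟩ := hg; exact hgen g S hS h
  | zero => exact h0
  | add f g _ _ hf hg => exact hadd f g hf hg
  | smul c f _ hf => exact hsmul c f hf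

lemma low_zero {d : ℕ} : (fun _ => (0 : ℝ)) ∈ Low J A d := (Low J A d).zero_mem

lemma low_add {d : ℕ} {f g : (J → A) → ℝ} (hf : f ∈ Low J A d) (hg : g ∈ Low J A d) :
    (fun x => f x + g x) ∈ Low J A d := (Low J A d).add_mem hf hg

lemma low_sub {d : ℕ} {f g : (J → A) → ℝ} (hf : f ∈ Low J A d) (hg : g ∈ Low J A d) :
    (fun x => f x - g x) ∈ Low J A d := (Low J A d).sub_mem hf hg

lemma low_smul {d : ℕ} (c : ℝ) {f : (J → A) → ℝ} (hf : f ∈ Low J A d) :
    (fun x => c * f x) ∈ Low J A d := (Low J A d).smul_mem c hf

lemma low_sum {d : ℕ} {ι : Type*} (s : Finset ι) {f : ι → (J → A) → ℝ}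
    (hf : ∀ i ∈ s, f i ∈ Low J A d) : (fun x => ∑ i ∈ s, f i x) ∈ Low J A d := by
  have := (Low J A d).sum_mem hf
  convert this using 1
  ext x; simp

lemma low_const {d : ℕ} (c : ℝ) : (fun _ => c) ∈ Low J A d :=
  low_of_dep ∅ (by simp) (fun _ _ _ => rfl)

lemma low_congr {d : ℕ} {f g : (J → A) → ℝ} (hf : f ∈ Low J A d) (h : ∀ x, g x = f x) :
    g ∈ Low J A d := by
  have : g = f := funext h
  rwa [this]

lemma low_mono {d d' : ℕ} (hd : d ≤ d') {f : (J → A) → ℝ} (hf : f ∈ Low J A d) :
    f ∈ Low J A d' := by
  refine low_induction (P := fun f => f ∈ Low J A d') ?_ low_zero (fun _ _ => low_add)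
    (fun c _ => low_smul c) hf
  intro g S hS h
  exact low_of_dep S (hS.trans hd) h

lemma low_top [Fintype J] (f : (J → A) → ℝ) : f ∈ Low J A (Fintype.card J) :=
  low_of_dep univ (by simp) (fun x y h => by
    have : x = y := funext fun j => h j (mem_univ j)
    rw [this])

lemma low_coord {d : ℕ} (hd : 1 ≤ d) (j : J) (u : A → ℝ) : (fun x => u (x j)) ∈ Low J A d :=
  low_of_dep {j} (by simpa using hd) (fun x y h => by rw [h j (by simp)])

lemma low_mul {a b : ℕ} {f g : (J → A) → ℝ} (hf : f ∈ Low J A a) (hg : g ∈ Low J A b) :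
    (fun x => f x * g x) ∈ Low J A (a + b) := by
  classical
  refine low_induction (P := fun f => (fun x => f x * g x) ∈ Low J A (a + b)) ?_ ?_ ?_ ?_ hf
  · intro f S hS h
    refine low_induction (P := fun g => (fun x => f x * g x) ∈ Low J A (a + b)) ?_ ?_ ?_ ?_ hg
    · intro g T hT h'
      refine low_of_dep (S ∪ T) ((card_union_le _ _).trans (by omega)) ?_
      intro x y hxy
      rw [h x y (fun j hj => hxy j (mem_union_left _ hj)),
        h' x y (fun j hj => hxy j (mem_union_right _ hj))]
    · exact low_congr low_zero (by simp)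
    · intro g1 g2 h1 h2
      exact low_congr (low_add h1 h2) (fun x => by ring)
    · intro c g1 h1
      exact low_congr (low_smul c h1) (fun x => by ring)
  · exact low_congr low_zero (by simp)
  · intro f1 f2 h1 h2
    exact low_congr (low_add h1 h2) (fun x => by ring)
  · intro c f1 h1
    exact low_congr (low_smul c h1) (fun x => by ring)

lemma low_prod {ι : Type*} (s : Finset ι) (d : ι → ℕ) {f : ι → (J → A) → ℝ}
    (hf : ∀ i ∈ s, f i ∈ Low J A (d i)) :
    (fun x => ∏ i ∈ s, f i x) ∈ Low J A (∑ i ∈ s, d i) := by
  classical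
  induction s using Finset.induction_on with
  | empty => exact low_congr (low_const 1) (by simp)
  | insert a s ha ih =>
    rw [sum_insert ha]
    refine low_congr (low_mul (hf a (mem_insert_self _ _))
      (ih fun i hi => hf i (mem_insert_of_mem hi))) ?_
    intro x
    rw [prod_insert ha]

lemma low_comp {d : ℕ} (e : J' → J) {g : (J' → A) → ℝ} (hg : g ∈ Low J' A d) :
    (fun x : J → A => g (fun j => x (e j))) ∈ Low J A d := by
  classical
  refine low_induction (P := fun g => (fun x : J → A => g (fun j => x (e j))) ∈ Low J A d)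
    ?_ low_zero (fun _ _ => low_add) (fun c _ => low_smul c) hg
  intro g S hS h
  refine low_of_dep (S.image e) (card_image_le.trans hS) ?_
  intro x y hxy
  exact h _ _ (fun j hj => hxy _ (mem_image_of_mem e hj))

/-- coordinatewise change of alphabet -/
lemma low_map {B : Type*} {d : ℕ} (e : A → B) {g : (J → B) → ℝ} (hg : g ∈ Low J B d) :
    (fun x : J → A => g (fun j => e (x j))) ∈ Low J A d := by
  refine low_induction (P := fun g => (fun x : J → A => g (fun j => e (x j))) ∈ Low J A d)
    ?_ low_zero (fun _ _ => low_add) (fun c _ => low_smul c) hg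
  intro g S hS h
  refine low_of_dep S hS ?_
  intro x y hxy
  exact h _ _ (fun j hj => by rw [hxy j hj])

/-- A function that ignores the coordinates in `R`. -/
lemma low_of_free [Fintype J] {g : (J → A) → ℝ} (R : Finset J)
    (h : ∀ x y : J → A, (∀ j, j ∉ R → x j = y j) → g x = g y) :
    g ∈ Low J A (Fintype.card J - R.card) := by
  classical
  refine low_of_dep Rᶜ (by rw [card_compl]) ?_
  intro x y hxy
  exact h x y (fun j hj => hxy j (mem_compl.2 hj))

/-- Alternating sums over large subcubes vanish. -/
lemma low_alt_sum [DecidableEq J] {d : ℕ} {g : (J → A) → ℝ} (hg : g ∈ Low J A d)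
    (S : Finset J) (hS : d < S.card) (c y : J → A) :
    ∑ Z ∈ S.powerset, (-1 : ℝ) ^ Z.card * g (Z.piecewise c y) = 0 := by
  refine low_induction
    (P := fun g => ∑ Z ∈ S.powerset, (-1 : ℝ) ^ Z.card * g (Z.piecewise c y) = 0)
    ?_ (by simp) ?_ ?_ hg
  · intro g T hT h
    obtain ⟨i, hiS, hiT⟩ : ∃ i ∈ S, i ∉ T := by
      by_contra hcon
      push Not at hcon
      have := card_le_card (show S ⊆ T from hcon)
      omega
    rw [← insert_erase hiS, sum_powerset_insert (notMem_erase i S), ← sum_add_distrib]
    refine sum_eq_zero ?_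
    intro Z hZ
    have hiZ : i ∉ Z := fun hi => notMem_erase i S (mem_powerset.1 hZ hi)
    rw [card_insert_of_notMem hiZ, pow_succ]
    have : g ((insert i Z).piecewise c y) = g (Z.piecewise c y) := by
      apply h
      intro j hj
      have hji : j ≠ i := fun e => hiT (e ▸ hj)
      by_cases hjZ : j ∈ Z <;> simp [Finset.piecewise, hji, hjZ]
    rw [this]; ring
  · intro f g hf hg
    simp only [mul_add, sum_add_distrib, hf, hg, add_zero]
  · intro c' f hf
    have : ∀ Z : Finset J, (-1 : ℝ) ^ Z.card * (c' * f (Z.piecewise c y))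
        = c' * ((-1 : ℝ) ^ Z.card * f (Z.piecewise c y)) := fun Z => by ring
    simp only [this, ← mul_sum, hf, mul_zero]

/-- number of coordinates where `y` agrees with the reference `c` -/
def hits [Fintype J] [DecidableEq A] (c y : J → A) : ℕ := (univ.filter fun j => y j = c j).card

/-- A low-degree function that is integral at all points with many hits is integral. -/
lemma low_integral [Fintype J] [DecidableEq J] [DecidableEq A] {r : ℕ} {g : (J → A) → ℝ}
    (hg : g ∈ Low J A (Fintype.card J - r)) (hr : r ≤ Fintype.card J) (c : J → A)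
    (h : ∀ y, r ≤ hits c y → ∃ z : ℤ, g y = z) (y : J → A) : ∃ z : ℤ, g y = z := by
  induction hn : Fintype.card J - hits c y using Nat.strong_induction_on generalizing y with
  | _ n ih =>
    by_cases hy : r ≤ hits c y
    · exact h y hy
    push Not at hy
    set S : Finset J := univ.filter fun j => ¬ y j = c j with hSdef
    have hcard : hits c y + S.card = Fintype.card J := by
      unfold hits
      rw [hSdef, card_filter_add_card_filter_not]
      simp
    have hS : Fintype.card J - r < S.card := by omega
    have key := low_alt_sum hg S hS c y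
    rw [← insert_erase (empty_mem_powerset S), sum_insert (notMem_erase _ _)] at key
    simp only [card_empty, pow_zero, piecewise_empty, one_mul] at key
    have hint : ∀ Z ∈ S.powerset.erase ∅, ∃ z : ℤ,
        (-1 : ℝ) ^ Z.card * g (Z.piecewise c y) = z := by
      intro Z hZ
      obtain ⟨hne, hZS⟩ := mem_erase.1 hZ
      have hZS := mem_powerset.1 hZS
      have hlt : hits c y < hits c (Z.piecewise c y) := by
        unfold hits
        apply card_lt_card
        rw [ssubset_iff_of_subset]
        · obtain ⟨i, hi⟩ := nonempty_iff_ne_empty.2 hne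
          refine ⟨i, ?_, ?_⟩
          · simp [Finset.piecewise, hi]
          · have := hZS hi
            simpa [hSdef] using this
        · intro j hj
          simp only [mem_filter, mem_univ, true_and] at hj ⊢
          by_cases hjZ : j ∈ Z <;> simp [Finset.piecewise, hjZ, hj]
      have hle : hits c (Z.piecewise c y) ≤ Fintype.card J := by
        unfold hits; exact (card_filter_le _ _).trans (by simp)
      obtain ⟨z, hz⟩ := ih (Fintype.card J - hits c (Z.piecewise c y)) (by omega) _ rfl
      exact ⟨(-1) ^ Z.card * z, by rw [hz]; push_cast; ring⟩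
    choose! z hz using hint
    refine ⟨-∑ Z ∈ S.powerset.erase ∅, z Z, ?_⟩
    rw [sum_congr rfl hz] at key
    push_cast
    linarith

/-- Substituting low-degree symbols into a junta-degree bounded function. -/
lemma low_subst {ι B : Type*} [Fintype A] [DecidableEq A] {d D : ℕ} (σ : (ι → B) → A)
    (hσ : ∀ a, (fun z => if σ z = a then (1 : ℝ) else 0) ∈ Low ι B D)
    {g : (J → A) → ℝ} (hg : g ∈ Low J A d) :
    (fun z : J × ι → B => g (fun j => σ (fun i => z (j, i)))) ∈ Low (J × ι) B (d * D) := by
  classical
  refine low_induction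
    (P := fun g => (fun z : J × ι → B => g (fun j => σ (fun i => z (j, i)))) ∈
      Low (J × ι) B (d * D)) ?_ low_zero (fun _ _ => low_add) (fun c _ => low_smul c) hg
  intro g S hS h
  refine low_mono (Nat.mul_le_mul_right D hS) ?_
  clear hS hg
  induction S using Finset.induction_on generalizing g with
  | empty =>
    refine low_of_dep ∅ (by simp) ?_
    intro x y _
    exact h _ _ (by simp)
  | insert j S hj ih =>
    rw [card_insert_of_notMem hj, add_mul, one_mul, add_comm]
    have h1 : ∀ a : A, (fun z : J × ι → B => (if σ (fun i => z (j, i)) = a then (1 : ℝ) else 0) *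
        g (Function.update (fun j => σ (fun i => z (j, i))) j a)) ∈
          Low (J × ι) B (D + S.card * D) := by
      intro a
      refine low_mul (low_comp (fun i => (j, i)) (hσ a)) ?_
      refine ih (fun x => g (Function.update x j a)) ?_
      intro x y hxy
      apply h
      intro k hk
      by_cases hkj : k = j
      · subst hkj; simp
      · rw [Function.update_of_ne hkj, Function.update_of_ne hkj]
        exact hxy k ((mem_insert.1 hk).resolve_left hkj)
    refine low_congr (low_sum univ fun a _ => h1 a) ?_
    intro z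
    rw [sum_eq_single (σ (fun i => z (j, i)))]
    · simp
    · intro b _ hb
      simp [Ne.symm hb]
    · simp

end Vale.Agent.P047
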