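import Vale.Agent.P047.Rows

namespace Vale.Agent.P047

open Finset Real

variable {A X1 κ : Type*} [Fintype A] [DecidableEq A] [Nonempty A] [Fintype X1] [DecidableEq X1]
  [Nonempty X1] [Fintype κ] [DecidableEq κ] [Nonempty κ] {n2 r m3 : ℕ}

/-- reserved columns -/
def Col (r : ℕ) (c : X1 → Fin n2 → A) (x2 : Fin n2 → A) : Prop := ∃ x1, hits (c x1) x2 < r

open Classical in
theorem phases (c : X1 → Fin n2 → A) (hr3 : r ≤ r * m3)
    (φ0 : X1 × (Fin n2 ⊕ (Fin r × Fin m3) → A) → κ → ℝ)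
    (a : X1 × (Fin n2 ⊕ (Fin r × Fin m3) → A) → Option κ → ℝ)
    (abar : X1 × (Fin n2 ⊕ (Fin r × Fin m3) → A) → ℝ)
    (γ' γ lam N2 : ℝ) (B : ℕ)
    (hlow : ∀ x1 k, (fun y => φ0 (x1, y) k) ∈
      Low (Fin n2 ⊕ (Fin r × Fin m3)) A (Fintype.card (Fin n2 ⊕ (Fin r × Fin m3)) - r))
    (hcol : ∀ x, Col r c (p2 x.2) → ∀ k, φ0 x k = 0)
    (hpos : ∀ x, ¬ Col r c (p2 x.2) → ∀ k, γ' ≤ φ0 x k)
    (ha0 : ∀ x o, 0 ≤ a x o) (habar0 : ∀ x, 0 ≤ abar x)
    (hN2 : 0 < N2) (habar : ∑ x, abar x ≤ N2)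
    (hp : ∀ x, ∀ p : κ → ℝ, (∀ k, |p k - φ0 x k| ≤ γ') →
      ∑ k, |p k| ≤ 1 ∧ ∑ o, wt p o * a x o ≤ abar x ∧ (Col r c (p2 x.2) → ∑ k, |p k| ≤ γ))
    (hlam : 0 < lam) (hγ : 0 ≤ γ) (hγ1 : γ' ≤ 1)
    (hnum : 3 * (2 * Fintype.card (X1 × (Fin n2 ⊕ (Fin r × Fin m3) → A)) * Fintype.card κ) ≤
      exp (lam * γ' - lam ^ 2 / 2 *
        (((n2 : ℝ) + 1) ^ r * (r * exp (-(m3 / Fintype.card A))))))
    (hB : ∀ (t1 : ℕ) (x2 : Fin n2 → A),
      exp t1 ≤ 3 * Fintype.card (Fin n2 ⊕ (Fin r × Fin m3) → A) * exp (2 * γ * Fintype.card X1) →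
      t1 + (univ.filter fun x1 => hits (c x1) x2 < r).card * (Fintype.card κ *
        (1 + (Fintype.card (Fin n2 ⊕ (Fin r × Fin m3)) + 1) ^ r)) ≤ B) :
    ∃ (out : X1 × (Fin n2 ⊕ (Fin r × Fin m3) → A) → Option κ)
      (z : X1 × (Fin n2 ⊕ (Fin r × Fin m3) → A) → κ → ℤ),
      (∀ x1 k, (fun y => (z (x1, y) k : ℝ)) ∈
        Low (Fin n2 ⊕ (Fin r × Fin m3)) A (Fintype.card (Fin n2 ⊕ (Fin r × Fin m3)) - r)) ∧
      (∀ x, ¬ Col r c (p2 x.2) → ∀ k, (z x k : ℝ) = if out x = some k then 1 else 0) ∧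
      (∀ y, Col r c (p2 y) → ∑ x1, ∑ k, (z (x1, y) k).natAbs ≤ B) ∧
      ∑ x, (if Col r c (p2 x.2) then 0 else a x (out x)) ≤ 3 * N2 := by
  set T : Finset (X1 × (Fin n2 ⊕ (Fin r × Fin m3) → A)) :=
    univ.filter fun x => r ≤ hits (c x.1) (p2 x.2) with hT
  have hmemT : ∀ x, x ∈ T ↔ r ≤ hits (c x.1) (p2 x.2) := fun x => by simp [hT]
  have hcolT : ∀ x, x ∉ T → Col r c (p2 x.2) := fun x hx =>
    ⟨x.1, by rw [hmemT] at hx; omega⟩
  obtain ⟨out, η, hsh, heq, hcost, hdef⟩ := round_rand T (fun x => hits (c x.1) (p2 x.2)) (hK c)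
    φ0 γ' γ _ lam N2 a abar (fun x => Col r c (p2 x.2)) (fun x => x.2)
    (fun x _ y h => hK_rank c x y h) (fun y => hK_sq c T y) ha0 habar0 hN2
    ((sum_le_sum_of_subset_of_nonneg (subset_univ T) fun _ _ _ => habar0 _).trans habar)
    (fun x _ => hp x) hlam hγ hnum
  let φ1 : X1 × (Fin n2 ⊕ (Fin r × Fin m3) → A) → κ → ℝ := fun y k =>
    φ0 y k + ∑ x ∈ T, η x k * (hK c x y + if y = x then 1 else 0)
  have hφ1 : ∀ y k, φ1 y k = φ0 y k + shf (hK c) T η y k + (if y ∈ T then η y k else 0) := by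
    intro y k
    simp only [φ1, shf, mul_add, sum_add_distrib, mul_ite, mul_one, mul_zero, sum_ite_eq]
    ring
  have hlow1 : ∀ x1 k, (fun y => φ1 (x1, y) k) ∈
      Low (Fin n2 ⊕ (Fin r × Fin m3)) A (Fintype.card (Fin n2 ⊕ (Fin r × Fin m3)) - r) :=
    fun x1 k => low_add (hlow x1 k) (low_sum T fun x hx =>
      low_smul (η x k) (hK_low c hr3 x ((hmemT x).1 hx) x1))
  let cc : X1 → Fin n2 ⊕ (Fin r × Fin m3) → A := fun x1 =>
    Sum.elim (c x1) (fun _ => Classical.arbitrary A)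
  set T2 : Finset (X1 × (Fin n2 ⊕ (Fin r × Fin m3) → A)) :=
    univ.filter fun x => x ∉ T ∧ r ≤ hits (cc x.1) x.2 with hT2
  have hmemT2 : ∀ x, x ∈ T2 ↔ x ∉ T ∧ r ≤ hits (cc x.1) x.2 := fun x => by simp [hT2]
  have h2 := fun k => round_det T2 (fun x => hits (cc x.1) x.2) (hD r cc)
    (fun x _ y h => hD_rank cc x y h) (fun y => φ1 y k)
  choose η2 hη2 hint2 using h2
  let φ2 : X1 × (Fin n2 ⊕ (Fin r × Fin m3) → A) → κ → ℝ := fun y k =>
    φ1 y k + ∑ x ∈ T2, η2 k x * (hD r cc x y + if y = x then 1 else 0)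
  have hlow2 : ∀ x1 k, (fun y => φ2 (x1, y) k) ∈
      Low (Fin n2 ⊕ (Fin r × Fin m3)) A (Fintype.card (Fin n2 ⊕ (Fin r × Fin m3)) - r) :=
    fun x1 k => low_add (hlow1 x1 k) (low_sum T2 fun x hx =>
      low_smul (η2 k x) (hD_low cc x ((hmemT2 x).1 hx).2 x1))
  have hT_val : ∀ y ∈ T, ∀ k,
      φ2 y k = val (out y) (fun k => φ0 y k + shf (hK c) T η y k) k := by
    intro y hy k
    rw [← heq y hy k]
    simp only [φ2]
    rw [hφ1, if_pos hy, sum_eq_zero, add_zero]
    intro x hx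
    rw [hD_add, if_neg, mul_zero]
    rintro ⟨h1, h2⟩
    apply ((hmemT2 x).1 hx).1
    rw [hmemT] at hy ⊢
    refine hy.trans ?_
    unfold hits
    refine card_le_card fun j hj => ?_
    simp only [mem_filter, mem_univ, true_and] at hj ⊢
    have := inPush_hit h2 (j := Sum.inl j) (by rw [h1] at hj; exact hj)
    exact this
  have hint : ∀ y k, ∃ z : ℤ, φ2 y k = z := by
    rintro ⟨x1, y⟩ k
    refine low_integral (hlow2 x1 k) ?_ (cc x1) (fun y hy => ?_) y
    · simp; omega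
    · by_cases hyT : (x1, y) ∈ T
      · rw [hT_val _ hyT]
        unfold val sgn
        split_ifs
        · exact ⟨-1, by simp⟩
        · exact ⟨1, by simp⟩
        · exact ⟨0, by simp⟩
      · have hyT2 : (x1, y) ∈ T2 := (hmemT2 _).2 ⟨hyT, hy⟩
        obtain ⟨z, hz⟩ := hint2 k _ hyT2
        refine ⟨z, ?_⟩
        rw [← hz]
        simp only [φ2, mul_add, sum_add_distrib, mul_ite, mul_one, mul_zero, sum_ite_eq, hyT2,
          if_true]
        ring
  choose z hz using hint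
  have hbound : ∀ y, y ∉ T → ∀ k, (z y k).natAbs ≤
      1 + (Fintype.card (Fin n2 ⊕ (Fin r × Fin m3)) + 1) ^ r := by
    intro y hy k
    have h1 : |φ2 y k| ≤ 1 + ((Fintype.card (Fin n2 ⊕ (Fin r × Fin m3)) : ℝ) + 1) ^ r := by
      simp only [φ2]
      refine (abs_add_le _ _).trans (add_le_add ?_ (hD_bound cc T2 (η2 k) (hη2 k) y))
      rw [hφ1, if_neg hy, hcol y (hcolT y hy), zero_add, add_zero]
      exact (hsh y k).trans hγ1
    rw [hz] at h1
    have h2 : (((z y k).natAbs : ℕ) : ℝ) = |(z y k : ℝ)| := by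
      rw [← Int.cast_abs, ← Int.natCast_natAbs, Int.cast_natCast]
    rw [← h2] at h1
    exact_mod_cast h1
  refine ⟨out, z, fun x1 k => low_congr (hlow2 x1 k) fun y => (hz _ _).symm, fun x hx k => ?_,
    fun y hy => ?_, ?_⟩
  · have hxT : x ∈ T := by
      by_contra h; exact hx (hcolT x h)
    rw [← hz, hT_val x hxT]
    unfold val sgn
    have h1 := hpos x hx k
    have h2 := (abs_le.1 (hsh x k)).1
    simp only []
    rw [if_neg (show ¬ (φ0 x k + shf (hK c) T η x k < 0) by linarith)]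
  · have h1 := hdef y
    have hc : (univ.filter fun x : X1 × (Fin n2 ⊕ (Fin r × Fin m3) → A) => x.2 = y).card
        = Fintype.card X1 := by
      rw [← card_univ]
      symm
      refine card_bij (fun x1 _ => (x1, y)) (by simp) (by simp) ?_
      intro x hx
      exact ⟨x.1, mem_univ _, Prod.ext rfl (mem_filter.1 hx).2.symm⟩
    rw [hc] at h1
    refine le_trans ?_ (hB _ (p2 y) h1)
    have hrow : ∀ x1, ∑ k, (z (x1, y) k).natAbs ≤
        (if (x1, y) ∈ T ∧ out (x1, y) ≠ none then 1 else 0) +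
        (if hits (c x1) (p2 y) < r then Fintype.card κ *
          (1 + (Fintype.card (Fin n2 ⊕ (Fin r × Fin m3)) + 1) ^ r) else 0) := by
      intro x1
      by_cases hxT : (x1, y) ∈ T
      · refine le_trans ?_ (Nat.le_add_right _ _)
        have hv : ∀ k, (z (x1, y) k).natAbs = if out (x1, y) = some k then 1 else 0 := by
          intro k
          have := hT_val _ hxT k
          rw [hz] at this
          unfold val sgn at this
          split_ifs at this ⊢
          · have : z (x1, y) k = -1 := by exact_mod_cast this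
            simp [this]
          · have : z (x1, y) k = 1 := by exact_mod_cast this
            simp [this]
          · have : z (x1, y) k = 0 := by exact_mod_cast this
            simp [this]
        simp only [hv]
        cases ho : out (x1, y) with
        | none => simp
        | some k0 => simp [hxT]
      · refine le_trans ?_ (Nat.le_add_left _ _)
        rw [if_pos (by rw [hmemT] at hxT; exact not_le.1 hxT)]
        calc ∑ k, (z (x1, y) k).natAbs
            ≤ ∑ _k : κ, (1 + (Fintype.card (Fin n2 ⊕ (Fin r × Fin m3)) + 1) ^ r) :=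
              sum_le_sum fun k _ => hbound _ hxT k
          _ = _ := by simp
    refine (sum_le_sum fun x1 _ => hrow x1).trans ?_
    rw [sum_add_distrib]
    refine add_le_add ?_ ?_
    · rw [← card_filter]
      refine card_le_card_of_injOn (fun x1 => (x1, y)) ?_ ?_
      · intro x1 hx1
        simp only [coe_filter, mem_univ, true_and, Set.mem_ofPred_eq] at hx1 ⊢
        exact ⟨hx1.1, hy, hx1.2⟩
      · intro x1 _ x1' _ h
        exact (Prod.ext_iff.1 h).1
    · rw [← sum_filter]; simp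
  · refine le_trans ?_ hcost
    rw [← sum_filter_add_sum_filter_not univ (fun x => x ∈ T)]
    have e1 : univ.filter (fun x => x ∈ T) = T := by ext; simp
    rw [e1, sum_eq_zero (s := univ.filter fun x => x ∉ T), add_zero]
    · refine sum_le_sum fun x _ => ?_
      split_ifs
      · exact ha0 _ _
      · exact le_rfl
    · intro x hx
      rw [if_pos (hcolT x (mem_filter.1 hx).2)]

end Vale.Agent.P047
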