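import Vale.Agent.P047.Source

namespace Vale.Agent.P047

open Finset Real

/-- A uniform quantiser with `K` cells on `[-L, L]`. -/
lemma quantiser (K : ℕ) (hK : 0 < K) (L : ℝ) (hL : 0 < L) :
    ∃ (q : ℝ → Fin K) (v : Fin K → ℝ), (∀ k, |v k| ≤ L) ∧
      ∀ u, (v (q u) - u) ^ 2 ≤ 8 * L ^ 2 / K ^ 2 + 4 * exp (-L) * (exp u + exp (-u)) := by
  have hKR : (0 : ℝ) < K := by exact_mod_cast hK
  let c : ℝ → ℝ := fun u => max (-L) (min u L)
  let i : ℝ → ℕ := fun u => min ⌊(c u + L) * K / (2 * L)⌋₊ (K - 1)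
  refine ⟨fun u => ⟨i u, by simp only [i]; omega⟩, fun k => -L + 2 * L * k / K, fun k => ?_,
    fun u => ?_⟩
  · have h1 : (k : ℝ) ≤ K := by exact_mod_cast k.2.le
    have h2 : 2 * L * k / K ≤ 2 * L := by
      rw [div_le_iff₀ hKR]; gcongr
    have h3 : 0 ≤ 2 * L * k / K := by positivity
    rw [abs_le]; constructor <;> linarith
  · have hc1 : -L ≤ c u := le_max_left _ _
    have hc2 : c u ≤ L := max_le (by linarith) (min_le_right _ _)
    set y : ℝ := (c u + L) * K / (2 * L) with hy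
    have hy0 : 0 ≤ y := by have : 0 ≤ c u + L := by linarith
                           positivity
    have hyK : y ≤ K := by
      rw [hy, div_le_iff₀ (by positivity)]; nlinarith
    have hi : (i u : ℝ) ≤ y ∧ y ≤ i u + 1 := by
      simp only [i, ← hy]
      rcases le_total ⌊y⌋₊ (K - 1) with h | h
      · rw [min_eq_left h]
        exact ⟨Nat.floor_le hy0, (Nat.lt_floor_add_one y).le⟩
      · rw [min_eq_right h]
        have h1 : ((K - 1 : ℕ) : ℝ) ≤ ⌊y⌋₊ := by exact_mod_cast h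
        have h2 : ((K - 1 : ℕ) : ℝ) = K - 1 := by rw [Nat.cast_sub hK]; simp
        have := Nat.floor_le hy0
        constructor <;> linarith
    have e1 : -L + 2 * L * (i u : ℝ) / K - c u = (2 * L / K) * (i u - y) := by
      rw [hy]; field_simp; ring
    have h1 : (-L + 2 * L * (i u : ℝ) / K - c u) ^ 2 ≤ 4 * L ^ 2 / K ^ 2 := by
      rw [e1, mul_pow]
      have : ((i u : ℝ) - y) ^ 2 ≤ 1 := by nlinarith [hi.1, hi.2]
      calc (2 * L / K) ^ 2 * ((i u : ℝ) - y) ^ 2 ≤ (2 * L / K) ^ 2 * 1 := by gcongr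
        _ = _ := by field_simp; ring
    have hq : ∀ t : ℝ, 0 ≤ t → t ^ 2 ≤ 2 * exp t := by
      intro t ht
      have := quadratic_le_exp_of_nonneg ht
      nlinarith
    have h2 : (c u - u) ^ 2 ≤ 2 * exp (-L) * (exp u + exp (-u)) := by
      have p1 := exp_pos u
      have p2 := exp_pos (-u)
      have p3 := exp_pos (-L)
      rcases le_total u (-L) with h | h
      · have : c u = -L := by simp only [c]; rw [max_eq_left]; exact (min_le_left _ _).trans h
        rw [this]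
        have := hq (-L - u) (by linarith)
        rw [show -L - u = -L + -u by ring, exp_add] at this
        nlinarith [mul_pos p3 p1]
      · rcases le_total u L with h' | h'
        · have : c u = u := by simp only [c]; rw [min_eq_left h', max_eq_right h]
          rw [this]; simp; positivity
        · have : c u = L := by simp only [c]; rw [min_eq_right h', max_eq_right (by linarith)]
          rw [this]
          have := hq (u - L) (by linarith)
          rw [show exp (u - L) = exp (-L) * exp u by rw [← exp_add]; ring_nf] at this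
          nlinarith [mul_pos p3 p2]
    change (-L + 2 * L * (i u : ℝ) / K - u) ^ 2 ≤ _
    have e2 : 8 * L ^ 2 / (K : ℝ) ^ 2 = 2 * (4 * L ^ 2 / K ^ 2) := by ring
    rw [e2]
    nlinarith [sq_nonneg ((-L + 2 * L * (i u : ℝ) / K - c u) - (c u - u))]

variable {A : Type} [Fintype A] [DecidableEq A]

omit [DecidableEq A] in
lemma Ex_exp_le {μ m : A → ℝ} (hμ0 : ∀ a, 0 ≤ μ a) (hμ1 : ∑ a, μ a = 1)
    (hm : ∑ a, μ a * m a = 0) (n : ℕ) (θ : ℝ) (hθ : ∀ a, |θ * m a| ≤ 1)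
    (hV : n * (θ ^ 2 * ∑ a, μ a * m a ^ 2) ≤ 1) :
    Ex (Fin n) μ (fun x => exp (θ * ∑ j, m (x j))) ≤ 3 := by
  simp only [mul_sum]
  rw [Ex_exp μ (fun a => θ * m a), Fintype.card_fin]
  have h1 : ∑ a, μ a * exp (θ * m a) ≤ exp (θ ^ 2 * ∑ a, μ a * m a ^ 2) := by
    calc ∑ a, μ a * exp (θ * m a) ≤ ∑ a, μ a * (1 + θ * m a + (θ * m a) ^ 2) := by
          refine sum_le_sum fun a _ => mul_le_mul_of_nonneg_left ?_ (hμ0 a)
          have := (abs_le.1 (abs_exp_sub_one_sub_id_le (hθ a))).2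
          linarith
      _ = ∑ a, μ a + θ * ∑ a, μ a * m a + θ ^ 2 * ∑ a, μ a * m a ^ 2 := by
          rw [mul_sum, mul_sum, ← sum_add_distrib, ← sum_add_distrib]
          exact sum_congr rfl fun a _ => by ring
      _ ≤ _ := by
          rw [hμ1, hm]
          have := add_one_le_exp (θ ^ 2 * ∑ a, μ a * m a ^ 2)
          linarith
  calc _ ≤ (exp (θ ^ 2 * ∑ a, μ a * m a ^ 2)) ^ n :=
        pow_le_pow_left₀ (sum_nonneg fun a _ => mul_nonneg (hμ0 a) (exp_pos _).le) h1 n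
    _ = exp (n * (θ ^ 2 * ∑ a, μ a * m a ^ 2)) := by rw [← exp_nat_mul]
    _ ≤ exp 1 := exp_le_exp.2 hV
    _ ≤ 3 := by have := exp_one_lt_d9; linarith

/-- The quantisation step: many copies of a source, summed and quantised to `K` symbols. -/
theorem quant {μ m : A → ℝ} {D : ℕ} (h : Src A μ m D) (hV : 0 < ∑ a, μ a * m a ^ 2)
    (K : ℕ) (hK : 0 < K) (L : ℝ) (hL : 0 < L) :
    ∃ (n : ℕ) (μ' m' v : Fin K → ℝ) (U : ℝ), 0 < n ∧ U = n * ∑ a, μ a * m a ^ 2 ∧
      Src (Fin K) μ' m' (n * D) ∧ (∀ k, v k ^ 2 ≤ L ^ 2 * U) ∧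
      ∑ k, μ' k * (v k - m' k) ^ 2 + (U - ∑ k, μ' k * m' k ^ 2) ≤
        (8 * L ^ 2 / K ^ 2 + 24 * exp (-L)) * U ∧
      ∑ k, μ' k * m' k ^ 2 ≤ U := by
  set V := ∑ a, μ a * m a ^ 2 with hVdef
  obtain ⟨n, hn⟩ := exists_nat_gt (∑ a, m a ^ 2 / V)
  have hn0 : (0 : ℝ) < n := lt_of_le_of_lt (sum_nonneg fun a _ => by positivity) hn
  have hnV : 0 < n * V := by positivity
  set ρ : ℝ := √(n * V) with hρ
  have hρ0 : 0 < ρ := sqrt_pos.2 hnV
  have hρ2 : ρ ^ 2 = n * V := sq_sqrt hnV.le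
  have hma : ∀ a, |m a| ≤ ρ := by
    intro a
    apply abs_le_sqrt
    have h1 : m a ^ 2 / V ≤ ∑ a, m a ^ 2 / V :=
      single_le_sum (f := fun a => m a ^ 2 / V) (fun a _ => by positivity) (mem_univ a)
    have := (div_le_iff₀ hV).1 (h1.trans hn.le)
    exact this
  obtain ⟨q, v, hv, hq⟩ := quantiser K hK L hL
  let F : (Fin n → A) → Fin K := fun x => q (ρ⁻¹ * ∑ j, m (x j))
  have hS := h.comp F (d := n) (fun a => by
    have := low_top (fun x : Fin n → A => if F x = a then (1 : ℝ) else 0)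
    rwa [Fintype.card_fin] at this)
  have hsq : Ex (Fin n) μ (fun x => (∑ j, m (x j)) ^ 2) = n * V := by
    rw [Ex_sum_sq h.sum_one m h.mean_zero, Fintype.card_fin]
  refine ⟨n, pmu μ F, pm μ m F, fun k => ρ * v k, n * V, by exact_mod_cast hn0, rfl, hS,
    fun k => ?_, ?_, ?_⟩
  · rw [mul_pow, hρ2, mul_comm]
    exact mul_le_mul_of_nonneg_right (sq_le_sq' (abs_le.1 (hv k)).1 (abs_le.1 (hv k)).2) hnV.le
  · have e := push_err h.nonneg m F (fun k => ρ * v k)
    rw [hsq] at e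
    rw [← e]
    have hpt : ∀ x : Fin n → A, (ρ * v (F x) - ∑ j, m (x j)) ^ 2 ≤
        (n * V) * (8 * L ^ 2 / K ^ 2) + (n * V) * (4 * exp (-L)) *
          (exp (ρ⁻¹ * ∑ j, m (x j)) + exp (-ρ⁻¹ * ∑ j, m (x j))) := by
      intro x
      have h1 := hq (ρ⁻¹ * ∑ j, m (x j))
      have e1 : (ρ * v (F x) - ∑ j, m (x j)) ^ 2 =
          (n * V) * (v (F x) - ρ⁻¹ * ∑ j, m (x j)) ^ 2 := by
        rw [← hρ2]; field_simp
      rw [e1, neg_mul, mul_assoc (n * V), ← mul_add]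
      exact mul_le_mul_of_nonneg_left h1 hnV.le
    refine (Ex_mono h.nonneg hpt).trans ?_
    rw [Ex_add, Ex_const h.sum_one, Ex_smul, Ex_add]
    have hθ : ∀ θ : ℝ, θ ^ 2 = ρ⁻¹ ^ 2 →
        Ex (Fin n) μ (fun x => exp (θ * ∑ j, m (x j))) ≤ 3 := by
      intro θ hθ
      refine Ex_exp_le h.nonneg h.sum_one h.mean_zero n θ (fun a => ?_) ?_
      · rw [abs_mul, (sq_eq_sq_iff_abs_eq_abs _ _).1 hθ, abs_of_pos (inv_pos.2 hρ0),
          inv_mul_le_iff₀ hρ0, mul_one]
        exact hma a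
      · rw [hθ, inv_pow, hρ2, ← hVdef]
        apply le_of_eq; field_simp
    have a1 := hθ ρ⁻¹ rfl
    have a2 := hθ (-ρ⁻¹) (by ring)
    have a3 : 0 ≤ n * V * (4 * exp (-L)) := by positivity
    nlinarith
  · rw [← hsq]; exact push_var_le h.nonneg m F

end Vale.Agent.P047
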