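import Vale.Agent.P047.Smooth
import Vale.Agent.P047.Round

namespace Vale.Agent.P047

open Finset Real

variable {A X1 : Type*} [Fintype A] [DecidableEq A] {n2 r m3 : ℕ}

/-- the part of a row point in the second group of coordinates -/
def p2 (y : Fin n2 ⊕ (Fin r × Fin m3) → A) : Fin n2 → A := fun j => y (Sum.inl j)

/-- the part of a row point in the third group of coordinates -/
def p3 (y : Fin n2 ⊕ (Fin r × Fin m3) → A) : Fin r × Fin m3 → A := fun j => y (Sum.inr j)

omit [Fintype A] [DecidableEq A] in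
lemma p23_ext {x y : Fin n2 ⊕ (Fin r × Fin m3) → A} (h2 : p2 x = p2 y) (h3 : p3 x = p3 y) :
    x = y := by
  funext j
  cases j with
  | inl j => exact congrFun h2 j
  | inr j => exact congrFun h3 j

open Classical in
/-- compensation kernel of the first phase -/
noncomputable def hK (c : X1 → Fin n2 → A) (x y : X1 × (Fin n2 ⊕ (Fin r × Fin m3) → A)) : ℝ :=
  if y.1 = x.1 ∧ inPush r (c x.1) (p2 x.2) (p2 y.2) ∧ p2 y.2 ≠ p2 x.2 then QK (p3 x.2) (p3 y.2)
  else 0

lemma hK_rank (c : X1 → Fin n2 → A) (x y : X1 × (Fin n2 ⊕ (Fin r × Fin m3) → A))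
    (h : hK c x y ≠ 0) : hits (c y.1) (p2 y.2) < hits (c x.1) (p2 x.2) := by
  unfold hK at h
  split_ifs at h with hc
  · rw [hc.1]; exact inPush_lt hc.2.1 hc.2.2
  · exact absurd rfl h

lemma hK_sq [Nonempty A] [Fintype X1] (c : X1 → Fin n2 → A)
    (T : Finset (X1 × (Fin n2 ⊕ (Fin r × Fin m3) → A)))
    (y : X1 × (Fin n2 ⊕ (Fin r × Fin m3) → A)) :
    ∑ x ∈ T, hK c x y ^ 2 ≤ ((n2 : ℝ) + 1) ^ r * (r * exp (-(m3 / Fintype.card A))) := by
  classical
  refine (sum_le_sum_of_subset_of_nonneg (subset_univ T) fun _ _ _ => sq_nonneg _).trans ?_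
  rw [Fintype.sum_prod_type, sum_eq_single y.1]
  · have e1 : ∑ x : Fin n2 ⊕ (Fin r × Fin m3) → A, hK c (y.1, x) y ^ 2 ≤
        ∑ x : Fin n2 ⊕ (Fin r × Fin m3) → A,
          (if inPush r (c y.1) (p2 x) (p2 y.2) then (1 : ℝ) else 0) * QK (p3 x) (p3 y.2) ^ 2 := by
      refine sum_le_sum fun x _ => ?_
      unfold hK
      by_cases h1 : inPush r (c y.1) (p2 x) (p2 y.2)
      · rw [if_pos h1, one_mul]
        split_ifs
        · exact le_rfl
        · simpa using sq_nonneg _
      · simp [h1]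
    refine e1.trans ?_
    have e2 : ∑ x : Fin n2 ⊕ (Fin r × Fin m3) → A,
          (if inPush r (c y.1) (p2 x) (p2 y.2) then (1 : ℝ) else 0) * QK (p3 x) (p3 y.2) ^ 2 =
        ∑ q : (Fin n2 → A) × (Fin r × Fin m3 → A),
          (if inPush r (c y.1) q.1 (p2 y.2) then (1 : ℝ) else 0) * QK q.2 (p3 y.2) ^ 2 :=
      Fintype.sum_equiv (Equiv.sumArrowEquivProdArrow _ _ _) _ _ fun x => rfl
    rw [e2, Fintype.sum_prod_type]
    simp only []
    rw [← sum_mul_sum univ univ
      (fun x => if inPush r (c y.1) x (p2 y.2) then (1 : ℝ) else 0) (fun x => QK x (p3 y.2) ^ 2)]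
    refine mul_le_mul ?_ (sum_QK_sq _) (sum_nonneg fun _ _ => sq_nonneg _) (by positivity)
    have := card_senders r (c y.1) (p2 y.2)
    rw [Fintype.card_fin] at this
    rw [sum_boole]
    exact_mod_cast this
  · intro x1 _ hx1
    refine sum_eq_zero fun x _ => ?_
    simp [hK, Ne.symm hx1]
  · simp

lemma hK_low [DecidableEq X1] (c : X1 → Fin n2 → A) (hr3 : r ≤ r * m3)
    (x : X1 × (Fin n2 ⊕ (Fin r × Fin m3) → A)) (hx : r ≤ hits (c x.1) (p2 x.2)) (x1 : X1) :
    (fun y => hK c x (x1, y) + (if (x1, y) = x then 1 else 0)) ∈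
      Low (Fin n2 ⊕ (Fin r × Fin m3)) A (Fintype.card (Fin n2 ⊕ (Fin r × Fin m3)) - r) := by
  classical
  by_cases h1 : x1 = x.1
  · have hr2 : r ≤ n2 := by
      refine hx.trans ?_
      unfold hits
      exact (card_filter_le _ _).trans (by simp)
    have a1 := low_mul
      (low_comp (J := Fin n2 ⊕ (Fin r × Fin m3)) Sum.inl
        (low_top (fun y2 : Fin n2 → A => if y2 = p2 x.2 then (1 : ℝ) else 0)))
      (low_comp Sum.inr (low_LK (p3 x.2)))
    have a2 := low_mul
      (low_comp (J := Fin n2 ⊕ (Fin r × Fin m3)) Sum.inl (low_inPush hx))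
      (low_comp Sum.inr (low_top (fun y3 : Fin r × Fin m3 → A => QK (p3 x.2) y3)))
    refine low_congr (low_add (low_mono ?_ a1) (low_mono ?_ a2)) fun y => ?_
    · simp; omega
    · simp; omega
    · change _ = (if p2 y = p2 x.2 then (1 : ℝ) else 0) * LK (p3 x.2) (p3 y) +
        (if inPush r (c x.1) (p2 x.2) (p2 y) then (1 : ℝ) else 0) * QK (p3 x.2) (p3 y)
      unfold hK
      by_cases h2 : p2 y = p2 x.2
      · have : ((x1, y) = x) ↔ p3 x.2 = p3 y := by
          constructor
          · rintro rfl; rfl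
          · intro h3
            exact Prod.ext h1 (p23_ext h2 h3.symm)
        simp only [h2, this, ne_eq, not_true, and_false, if_false, if_true, inPush_self, QK]
        by_cases h3 : p3 x.2 = p3 y <;> simp [h3]
      · have : ¬ ((x1, y) = x) := by rintro rfl; exact h2 rfl
        by_cases h3 : inPush r (c x.1) (p2 x.2) (p2 y) <;> simp [h1, h2, h3] <;>
          simpa [h1] using this
  · refine low_congr low_zero fun y => ?_
    have : ¬ ((x1, y) = x) := by rintro rfl; exact h1 rfl
    simp [hK, h1, this]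

open Classical in
/-- compensation kernel of the second phase -/
noncomputable def hD {J : Type*} [Fintype J] (r : ℕ) (cc : X1 → J → A) (x y : X1 × (J → A)) : ℝ :=
  if y.1 = x.1 ∧ inPush r (cc x.1) x.2 y.2 ∧ y.2 ≠ x.2 then 1 else 0

omit [Fintype A] in
lemma hD_rank {J : Type*} [Fintype J] (cc : X1 → J → A) (x y : X1 × (J → A))
    (h : hD r cc x y ≠ 0) : hits (cc y.1) y.2 < hits (cc x.1) x.2 := by
  unfold hD at h
  split_ifs at h with hc
  · rw [hc.1]; exact inPush_lt hc.2.1 hc.2.2
  · exact absurd rfl h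

open Classical in
omit [Fintype A] in
lemma hD_add {J : Type*} [Fintype J] [DecidableEq X1] (cc : X1 → J → A) (x y : X1 × (J → A)) :
    hD r cc x y + (if y = x then 1 else 0) =
      if y.1 = x.1 ∧ inPush r (cc x.1) x.2 y.2 then 1 else 0 := by
  unfold hD
  by_cases h : y = x
  · subst h; simp [inPush_self]
  · by_cases h1 : y.1 = x.1
    · have h2 : y.2 ≠ x.2 := fun h2 => h (Prod.ext h1 h2)
      simp [h, h1, h2]
    · simp [h, h1]

open Classical in
omit [Fintype A] in
lemma hD_low {J : Type*} [Fintype J] [DecidableEq X1] (cc : X1 → J → A)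
    (x : X1 × (J → A)) (hx : r ≤ hits (cc x.1) x.2) (x1 : X1) :
    (fun y => hD r cc x (x1, y) + (if (x1, y) = x then 1 else 0)) ∈
      Low J A (Fintype.card J - r) := by
  by_cases h1 : x1 = x.1
  · refine low_congr (low_inPush hx) fun y => ?_
    rw [hD_add]; simp [h1]
  · refine low_congr low_zero fun y => ?_
    rw [hD_add]; simp [h1]

open Classical in
lemma hD_bound {J : Type*} [Fintype J] [DecidableEq J] [Fintype X1] [DecidableEq X1]
    (cc : X1 → J → A) (T : Finset (X1 × (J → A)))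
    (η : X1 × (J → A) → ℝ) (hη : ∀ x, |η x| ≤ 1) (y : X1 × (J → A)) :
    |∑ x ∈ T, η x * (hD r cc x y + (if y = x then 1 else 0))| ≤
      ((Fintype.card J : ℝ) + 1) ^ r := by
  refine (abs_sum_le_sum_abs _ _).trans ?_
  have h1 : ∀ x, |η x * (hD r cc x y + (if y = x then 1 else 0))| ≤
      if y.1 = x.1 ∧ inPush r (cc x.1) x.2 y.2 then 1 else 0 := by
    intro x
    rw [hD_add]
    split_ifs
    · simpa using hη x
    · simp
  refine (sum_le_sum fun x _ => h1 x).trans ?_
  refine (sum_le_sum_of_subset_of_nonneg (subset_univ T) fun _ _ _ => by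
    split_ifs <;> norm_num).trans ?_
  rw [Fintype.sum_prod_type, sum_eq_single y.1]
  · have := card_senders r (cc y.1) y.2
    simp only [true_and]
    rw [sum_boole]
    exact_mod_cast this
  · intro x1 _ hx1
    simp [Ne.symm hx1]
  · simp

end Vale.Agent.P047
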