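import Vale.Agent.P047.Low
import Vale.Agent.P047.Prob

namespace Vale.Agent.P047

open Finset Real

section smooth
variable {A : Type*} [Fintype A] [DecidableEq A]

/-- top-degree projection kernel on one block -/
noncomputable def tauK {m : ℕ} (x y : Fin m → A) : ℝ :=
  ∏ i, ((if x i = y i then (1 : ℝ) else 0) - 1 / Fintype.card A)

/-- complementary kernel on one block -/
noncomputable def ellK {m : ℕ} (x y : Fin m → A) : ℝ := (if x = y then 1 else 0) - tauK x y

/-- product of the complementary kernels -/
noncomputable def LK {r m : ℕ} (x y : Fin r × Fin m → A) : ℝ :=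
  ∏ b, ellK (fun i => x (b, i)) (fun i => y (b, i))

/-- the smoothing kernel -/
noncomputable def QK {r m : ℕ} (x y : Fin r × Fin m → A) : ℝ := (if x = y then 1 else 0) - LK x y

omit [Fintype A] in
lemma low_delta_sub {J : Type*} (x : J → A) (c : ℝ) (S : Finset J) :
    (fun y : J → A => ∏ i ∈ S, (if x i = y i then (1 : ℝ) else 0) -
      ∏ i ∈ S, ((if x i = y i then (1 : ℝ) else 0) - c)) ∈ Low J A (S.card - 1) := by
  classical
  induction S using Finset.induction_on with
  | empty => exact low_congr low_zero (by simp)
  | insert a S ha ih =>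
    rw [card_insert_of_notMem ha, Nat.add_sub_cancel]
    have h1 : (fun y : J → A => ∏ i ∈ S, ((if x i = y i then (1 : ℝ) else 0) - c)) ∈
        Low J A S.card := by
      have := low_prod (J := J) (A := A) S (fun _ => 1)
        (f := fun i y => (if x i = y i then (1 : ℝ) else 0) - c)
        (fun i _ => low_coord le_rfl i (fun a => (if x i = a then (1 : ℝ) else 0) - c))
      simpa using this
    rcases S.eq_empty_or_nonempty with rfl | hS
    · exact low_congr (low_const c) (by simp)
    · have hc := card_pos.2 hS
      have h2 := low_mul (low_coord le_rfl a (fun b => if x a = b then (1 : ℝ) else 0)) ih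
      refine low_congr (low_add (low_mono (by omega) h2) (low_smul c h1)) fun y => ?_
      rw [prod_insert ha, prod_insert ha]; ring

lemma low_ellK {m : ℕ} (x : Fin m → A) : (fun y => ellK x y) ∈ Low (Fin m) A (m - 1) := by
  have := low_delta_sub x (1 / Fintype.card A) univ
  rw [card_univ, Fintype.card_fin] at this
  refine low_congr this fun y => ?_
  unfold ellK tauK
  congr 1
  by_cases h : x = y
  · simp [h]
  · obtain ⟨i, hi⟩ := Function.ne_iff.1 h
    rw [if_neg h, prod_eq_zero (mem_univ i) (by simp [hi])]

lemma low_LK {r m : ℕ} (x : Fin r × Fin m → A) :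
    (fun y => LK x y) ∈ Low (Fin r × Fin m) A (Fintype.card (Fin r × Fin m) - r) := by
  have := low_prod (J := Fin r × Fin m) (A := A) univ (fun _ => m - 1)
    (f := fun b y => ellK (fun i => x (b, i)) (fun i => y (b, i)))
    (fun b _ => low_comp (fun i => (b, i)) (low_ellK (fun i => x (b, i))))
  refine low_mono ?_ this
  simp [Nat.mul_sub_one]

lemma sum_QK_sq [Nonempty A] {r m : ℕ} (y : Fin r × Fin m → A) :
    ∑ x, QK x y ^ 2 ≤ r * exp (-(m / Fintype.card A)) := by
  have hK : (0 : ℝ) < Fintype.card A := by exact_mod_cast Fintype.card_pos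
  have hK1 : (1 : ℝ) ≤ Fintype.card A := by exact_mod_cast Fintype.card_pos
  set ρ : ℝ := (1 - 1 / Fintype.card A) ^ m with hρ
  have h01 : 0 ≤ 1 - 1 / (Fintype.card A : ℝ) := by
    rw [sub_nonneg, div_le_one hK]; exact hK1
  have hρ0 : 0 ≤ ρ := pow_nonneg h01 _
  have hρ1 : ρ ≤ 1 := pow_le_one₀ h01 (by have : 0 < 1 / (Fintype.card A : ℝ) := by positivity
                                          linarith)
  have htt : ∀ w : Fin m → A, tauK w w = ρ := by intro w; simp [tauK, hρ]
  have hts : ∀ w : Fin m → A, ∑ u, tauK u w ^ 2 = ρ := by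
    intro w
    unfold tauK
    simp only [← prod_pow]
    rw [sum_prod_pi
      (fun i a => ((if a = w i then (1 : ℝ) else 0) - 1 / (Fintype.card A : ℝ)) ^ 2)]
    have : ∀ i, ∑ a, ((if a = w i then (1 : ℝ) else 0) - 1 / (Fintype.card A : ℝ)) ^ 2
        = 1 - 1 / (Fintype.card A : ℝ) := by
      intro i
      have e : ∀ a, ((if a = w i then (1 : ℝ) else 0) - 1 / (Fintype.card A : ℝ)) ^ 2 =
          (if a = w i then 1 - 2 / (Fintype.card A : ℝ) else 0)
            + 1 / (Fintype.card A : ℝ) ^ 2 := by
        intro a; split_ifs <;> ring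
      simp only [e, sum_add_distrib, sum_ite_eq', mem_univ, if_true, sum_const, card_univ,
        nsmul_eq_mul]
      field_simp; ring
    simp only [this, hρ, prod_const, card_univ, Fintype.card_fin]
  have hls : ∀ w : Fin m → A, ∑ u, ellK u w ^ 2 = 1 - ρ := by
    intro w
    have e : ∀ u, ellK u w ^ 2 = (if u = w then 1 - 2 * ρ else 0) + tauK u w ^ 2 := by
      intro u
      unfold ellK
      by_cases h : u = w
      · subst h; simp only [if_true, htt]; ring
      · simp [h]
    simp only [e, sum_add_distrib, sum_ite_eq', mem_univ, if_true, hts]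
    ring
  have hLL : LK y y = (1 - ρ) ^ r := by simp [LK, ellK, htt]
  have hLs : ∑ x, LK x y ^ 2 = (1 - ρ) ^ r := by
    have e1 : ∑ x, LK x y ^ 2 = ∑ w : Fin r → Fin m → A,
        ∏ b, ellK (w b) (fun i => y (b, i)) ^ 2 := by
      refine Fintype.sum_equiv (Equiv.curry _ _ _) _ _ fun x => ?_
      unfold LK
      rw [← prod_pow]; rfl
    rw [e1, sum_prod_pi (fun b (u : Fin m → A) => ellK u (fun i => y (b, i)) ^ 2)]
    simp [hls]
  have e : ∀ x, QK x y ^ 2 = (if x = y then 1 - 2 * (1 - ρ) ^ r else 0) + LK x y ^ 2 := by
    intro x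
    unfold QK
    by_cases h : x = y
    · subst h; simp only [if_true, hLL]; ring
    · simp [h]
  simp only [e, sum_add_distrib, sum_ite_eq', mem_univ, if_true, hLs]
  have hb := one_add_mul_le_pow (show (-2 : ℝ) ≤ -ρ by linarith) r
  have hρe : ρ ≤ exp (-(m / Fintype.card A)) := by
    have a2 : 1 - 1 / (Fintype.card A : ℝ) ≤ exp (-(1 / Fintype.card A)) := by
      have := add_one_le_exp (-(1 / (Fintype.card A : ℝ))); linarith
    calc ρ ≤ (exp (-(1 / (Fintype.card A : ℝ)))) ^ m := pow_le_pow_left₀ h01 a2 _
      _ = _ := by rw [← exp_nat_mul]; congr 1; ring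
  have : (r : ℝ) * ρ ≤ r * exp (-(m / Fintype.card A)) :=
    mul_le_mul_of_nonneg_left hρe (Nat.cast_nonneg r)
  have e2 : (1 + -ρ) = 1 - ρ := by ring
  rw [e2] at hb
  linarith

end smooth

section push
variable {J A : Type*} [Fintype J] [DecidableEq A]

/-- a chosen set of `r` coordinates where `x` agrees with the reference -/
noncomputable def pushSet (r : ℕ) (c x : J → A) : Finset J :=
  if h : r ≤ hits c x then (exists_subset_card_eq h).choose else ∅

/-- `y` lies in the box spanned by the chosen coordinates of `x` -/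
def inPush (r : ℕ) (c x y : J → A) : Prop := ∀ j, j ∉ pushSet r c x → y j = x j

lemma pushSet_card {r : ℕ} {c x : J → A} (h : r ≤ hits c x) : (pushSet r c x).card = r := by
  unfold pushSet; rw [dif_pos h]; exact (exists_subset_card_eq h).choose_spec.2

lemma pushSet_card_le (r : ℕ) (c x : J → A) : (pushSet r c x).card ≤ r := by
  by_cases h : r ≤ hits c x
  · exact (pushSet_card h).le
  · unfold pushSet; rw [dif_neg h]; simp

lemma pushSet_hit {r : ℕ} {c x : J → A} {j : J} (hj : j ∈ pushSet r c x) : x j = c j := by
  unfold pushSet at hj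
  by_cases h : r ≤ hits c x
  · rw [dif_pos h] at hj
    have := (exists_subset_card_eq h).choose_spec.1 hj
    simpa using this
  · rw [dif_neg h] at hj; simp at hj

lemma inPush_self (r : ℕ) (c x : J → A) : inPush r c x x := fun _ _ => rfl

lemma inPush_hit {r : ℕ} {c x y : J → A} (h : inPush r c x y) {j : J} (hj : y j = c j) :
    x j = c j := by
  by_cases hR : j ∈ pushSet r c x
  · exact pushSet_hit hR
  · rw [← h j hR, hj]

lemma inPush_lt {r : ℕ} {c x y : J → A} (h : inPush r c x y) (hne : y ≠ x) :
    hits c y < hits c x := by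
  unfold hits
  apply card_lt_card
  rw [ssubset_iff_of_subset]
  · obtain ⟨j, hj⟩ := Function.ne_iff.1 hne
    have hR : j ∈ pushSet r c x := by
      by_contra hR; exact hj (h j hR)
    refine ⟨j, by simpa using pushSet_hit hR, ?_⟩
    simp only [mem_filter, mem_univ, true_and]
    rw [← pushSet_hit hR]; exact hj
  · intro j hj
    simp only [mem_filter, mem_univ, true_and] at hj ⊢
    exact inPush_hit h hj

open Classical in
lemma low_inPush {r : ℕ} {c x : J → A} (h : r ≤ hits c x) :
    (fun y => if inPush r c x y then (1 : ℝ) else 0) ∈ Low J A (Fintype.card J - r) := by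
  have := low_of_free (A := A) (g := fun y => if inPush r c x y then (1 : ℝ) else 0)
    (pushSet r c x) ?_
  · rwa [pushSet_card h] at this
  · intro y y' hyy
    have : inPush r c x y ↔ inPush r c x y' :=
      forall_congr' fun j => forall_congr' fun hj => by rw [hyy j hj]
    simp only [this]

lemma card_small_subsets (J : Type*) [Fintype J] [DecidableEq J] (r : ℕ) :
    (univ.filter fun U : Finset J => U.card ≤ r).card ≤ (Fintype.card J + 1) ^ r := by
  have h1 : (univ.filter fun U : Finset J => U.card ≤ r) ⊆
      (range (r + 1)).biUnion fun s => powersetCard s univ := by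
    intro U hU
    simp only [mem_filter, mem_univ, true_and] at hU
    simp only [mem_biUnion, mem_range, mem_powersetCard]
    exact ⟨U.card, by omega, subset_univ _, rfl⟩
  refine (card_le_card h1).trans (card_biUnion_le.trans ?_)
  rw [add_pow]
  refine sum_le_sum fun s hs => ?_
  rw [card_powersetCard, card_univ, one_pow, mul_one]
  have h2 : 1 ≤ r.choose s := Nat.choose_pos (by have := mem_range.1 hs; omega)
  calc (Fintype.card J).choose s ≤ Fintype.card J ^ s := Nat.choose_le_pow _ _
    _ ≤ _ := Nat.le_mul_of_pos_right _ h2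

open Classical in
lemma card_senders [Fintype A] [DecidableEq J] (r : ℕ) (c y : J → A) :
    (univ.filter fun x => inPush r c x y).card ≤ (Fintype.card J + 1) ^ r := by
  refine le_trans ?_ (card_small_subsets J r)
  refine card_le_card_of_injOn (fun x => univ.filter fun j => x j ≠ y j) ?_ ?_
  · intro x hx
    simp only [coe_filter, mem_univ, true_and, Set.mem_ofPred_eq] at hx ⊢
    refine le_trans (card_le_card ?_) (pushSet_card_le r c x)
    intro j hj
    by_contra hR
    exact (mem_filter.1 hj).2 (hx j hR).symm
  · intro x hx x' hx' hxx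
    simp only [coe_filter, mem_univ, true_and, Set.mem_ofPred_eq] at hx hx'
    funext j
    have hj : (x j ≠ y j) ↔ (x' j ≠ y j) := by
      have := Finset.ext_iff.1 hxx j
      simpa using this
    by_cases h1 : x j = y j
    · have h2 : x' j = y j := by
        by_contra h2; exact hj.2 h2 h1
      rw [h1, h2]
    · have h2 := hj.1 h1
      have a1 : j ∈ pushSet r c x := by
        by_contra hR; exact h1 (hx j hR).symm
      have a2 : j ∈ pushSet r c x' := by
        by_contra hR; exact h2 (hx' j hR).symm
      rw [pushSet_hit a1, pushSet_hit a2]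

end push

end Vale.Agent.P047
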