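import Vale.Agent.P047.Low
import Vale.Agent.P047.Prob

namespace Vale.Agent.P047

open Finset

/-- the sign attached to a bit -/
def sg (b : Bool) : ℝ := if b then 1 else -1

/-- the uniform weight on bits -/
noncomputable def half : Bool → ℝ := fun _ => 1 / 2

lemma sum_half : ∑ b, half b = 1 := by simp [half]

lemma half_nonneg (b : Bool) : 0 ≤ half b := by simp [half]

/-- `Src A μ m D`: some partition of a discrete cube into parts indexed by `A` has parts of
junta-degree at most `D`, masses `μ`, and conditional means `m` of the sum of the signs. -/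
def Src (A : Type) [Fintype A] [DecidableEq A] (μ m : A → ℝ) (D : ℕ) : Prop :=
  ∃ (ι : Type) (_ : Fintype ι) (_ : DecidableEq ι) (σ : (ι → Bool) → A),
    (∀ a, (fun z => if σ z = a then (1 : ℝ) else 0) ∈ Low ι Bool D) ∧
    (∀ a, Ex ι half (fun z => if σ z = a then 1 else 0) = μ a) ∧
    (∀ a, Ex ι half (fun z => if σ z = a then ∑ i, sg (z i) else 0) = μ a * m a)

variable {A A' J : Type} [Fintype A] [DecidableEq A] [Fintype A'] [DecidableEq A']
  [Fintype J] [DecidableEq J]

lemma Src.nonneg {μ m : A → ℝ} {D : ℕ} (h : Src A μ m D) (a : A) : 0 ≤ μ a := by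
  obtain ⟨ι, _, _, σ, -, h2, -⟩ := h
  rw [← h2]
  exact Ex_nonneg half_nonneg fun z => by split_ifs <;> norm_num

lemma Src.sum_one {μ m : A → ℝ} {D : ℕ} (h : Src A μ m D) : ∑ a, μ a = 1 := by
  obtain ⟨ι, _, _, σ, -, h2, -⟩ := h
  simp only [← h2]
  rw [← Ex_sum]
  simp [Ex_const sum_half]

lemma Src.mean_zero {μ m : A → ℝ} {D : ℕ} (h : Src A μ m D) : ∑ a, μ a * m a = 0 := by
  obtain ⟨ι, _, _, σ, -, -, h3⟩ := h
  simp only [← h3]
  rw [← Ex_sum]
  simp only [sum_ite_eq, mem_univ, if_true]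
  rw [Ex_sum_coord sum_half]
  simp [half, sg]

lemma Src.mono {μ m : A → ℝ} {D D' : ℕ} (h : Src A μ m D) (hD : D ≤ D') : Src A μ m D' := by
  obtain ⟨ι, i1, i2, σ, h1, h2, h3⟩ := h
  exact ⟨ι, i1, i2, σ, fun a => low_mono hD (h1 a), h2, h3⟩

/-- mass of a part of a partition of a product space -/
noncomputable def pmu (μ : A → ℝ) (F : (J → A) → A') (a : A') : ℝ :=
  Ex J μ (fun x => if F x = a then 1 else 0)

/-- conditional mean of the sum on a part of a partition of a product space -/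
noncomputable def pm (μ m : A → ℝ) (F : (J → A) → A') (a : A') : ℝ :=
  Ex J μ (fun x => if F x = a then ∑ j, m (x j) else 0) / pmu μ F a

omit [DecidableEq A] [Fintype A'] in
lemma pmu_mul_pm {μ : A → ℝ} (hμ : ∀ a, 0 ≤ μ a) (m : A → ℝ) (F : (J → A) → A') (a : A') :
    pmu μ F a * pm μ m F a = Ex J μ (fun x => if F x = a then ∑ j, m (x j) else 0) := by
  unfold pm
  by_cases h : pmu μ F a = 0
  · rw [h, zero_mul]
    unfold pmu Ex at h
    rw [sum_eq_zero_iff_of_nonneg (fun x _ => mul_nonneg (pw_nonneg hμ x)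
      (by split_ifs <;> norm_num))] at h
    unfold Ex
    symm
    refine sum_eq_zero fun x hx => ?_
    have := h x hx
    by_cases hF : F x = a
    · simp only [hF, if_true, mul_one] at this
      simp [this]
    · simp [hF]
  · field_simp

lemma Src.comp {μ m : A → ℝ} {D d : ℕ} (h : Src A μ m D) (F : (J → A) → A')
    (hF : ∀ a, (fun x => if F x = a then (1 : ℝ) else 0) ∈ Low J A d) :
    Src A' (pmu μ F) (pm μ m F) (d * D) := by
  have hμ := h.nonneg
  obtain ⟨ι, i1, i2, σ, h1, h2, h3⟩ := h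
  have hpush : ∀ a, (∑ b : ι → Bool, if σ b = a then pw half b else 0) = μ a := by
    intro a
    rw [← h2]; unfold Ex
    exact sum_congr rfl fun b _ => by by_cases hb : σ b = a <;> simp [hb]
  have hpush' : ∀ a, (∑ b : ι → Bool, if σ b = a then pw half b * ∑ i, sg (b i) else 0)
      = μ a * m a := by
    intro a
    rw [← h3]; unfold Ex
    exact sum_congr rfl fun b _ => by by_cases hb : σ b = a <;> simp [hb]
  refine ⟨J × ι, inferInstance, inferInstance, fun z => F (fun j => σ (fun i => z (j, i))),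
    fun a => low_subst σ h1 (hF a), fun a => ?_, fun a => ?_⟩
  · rw [Ex_prodType half (fun w : J → ι → Bool => if F (fun j => σ (w j)) = a then 1 else 0)]
    have := sum_push σ (fun (_ : J) b => pw half b) (fun x => if F x = a then (1 : ℝ) else 0)
    simp only [hpush] at this
    exact this
  · rw [pmu_mul_pm hμ]
    have e1 : ∀ z : J × ι → Bool,
        (if F (fun j => σ (fun i => z (j, i))) = a then ∑ p, sg (z p) else 0)
        = ∑ j, (if F (fun j => σ (fun i => z (j, i))) = a then 1 else 0) * ∑ i, sg (z (j, i)) := by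
      intro z
      split_ifs <;> simp [Fintype.sum_prod_type]
    have e2 : ∀ x : J → A, (if F x = a then ∑ j, m (x j) else 0)
        = ∑ j, (if F x = a then 1 else 0) * m (x j) := by
      intro x
      split_ifs <;> simp
    simp only [e1, e2]
    rw [Ex_sum, Ex_sum]
    refine sum_congr rfl fun j _ => ?_
    rw [Ex_prodType half (fun w : J → ι → Bool =>
      (if F (fun j => σ (w j)) = a then 1 else 0) * ∑ i, sg (w j i))]
    have := sum_push σ (fun (k : J) b => pw half b * (if k = j then ∑ i, sg (b i) else 1))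
      (fun x => if F x = a then (1 : ℝ) else 0)
    have e3 : ∀ (k : J) (a : A), (∑ b : ι → Bool, if σ b = a then
        pw half b * (if k = j then ∑ i, sg (b i) else 1) else 0)
        = μ a * (if k = j then m a else 1) := by
      intro k a
      by_cases hk : k = j
      · simp only [hk, if_true]; exact hpush' a
      · simp only [hk, if_false, mul_one]; exact hpush a
    simp only [e3, prod_mul_distrib, prod_ite_eq', mem_univ, if_true] at this
    unfold Ex
    unfold pw at this ⊢
    refine Eq.trans (sum_congr rfl fun w _ => ?_) (this.trans (sum_congr rfl fun x _ => ?_))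
    · ring
    · ring

omit [DecidableEq A] in
lemma Ex_push (μ : A → ℝ) (F : (J → A) → A') (u : A' → ℝ) :
    Ex J μ (fun x => u (F x)) = ∑ a, pmu μ F a * u a := by
  unfold pmu
  simp only [mul_comm _ (u _), ← Ex_smul]
  rw [← Ex_sum]
  refine Ex_congr μ fun x => ?_
  simp

omit [DecidableEq A] in
lemma Ex_push' {μ : A → ℝ} (hμ : ∀ a, 0 ≤ μ a) (m : A → ℝ) (F : (J → A) → A') (u : A' → ℝ) :
    Ex J μ (fun x => u (F x) * ∑ j, m (x j)) = ∑ a, pmu μ F a * pm μ m F a * u a := by
  simp only [pmu_mul_pm hμ]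
  simp only [mul_comm _ (u _), ← Ex_smul]
  rw [← Ex_sum]
  refine Ex_congr μ fun x => ?_
  simp

omit [DecidableEq A] in
lemma push_err {μ : A → ℝ} (hμ : ∀ a, 0 ≤ μ a) (m : A → ℝ) (F : (J → A) → A') (u : A' → ℝ) :
    Ex J μ (fun x => (u (F x) - ∑ j, m (x j)) ^ 2) =
      ∑ a, pmu μ F a * (u a - pm μ m F a) ^ 2 +
        (Ex J μ (fun x => (∑ j, m (x j)) ^ 2) - ∑ a, pmu μ F a * pm μ m F a ^ 2) := by
  have e : ∀ x : J → A, (u (F x) - ∑ j, m (x j)) ^ 2 =
      (u (F x) ^ 2 - 2 * (u (F x) * ∑ j, m (x j))) + (∑ j, m (x j)) ^ 2 := fun x => by ring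
  simp only [e]
  rw [Ex_add, Ex_sub, Ex_smul, Ex_push μ F (fun a => u a ^ 2), Ex_push' hμ]
  have : ∑ a, pmu μ F a * (u a - pm μ m F a) ^ 2 =
      ∑ a, pmu μ F a * u a ^ 2 - 2 * ∑ a, pmu μ F a * pm μ m F a * u a
        + ∑ a, pmu μ F a * pm μ m F a ^ 2 := by
    rw [mul_sum, ← sum_sub_distrib, ← sum_add_distrib]
    exact sum_congr rfl fun a _ => by ring
  rw [this]; ring

omit [DecidableEq A] in
lemma push_var_le {μ : A → ℝ} (hμ : ∀ a, 0 ≤ μ a) (m : A → ℝ) (F : (J → A) → A') :
    ∑ a, pmu μ F a * pm μ m F a ^ 2 ≤ Ex J μ (fun x => (∑ j, m (x j)) ^ 2) := by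
  have h := push_err hμ m F (pm μ m F)
  have h0 : 0 ≤ Ex J μ (fun x => (pm μ m F (F x) - ∑ j, m (x j)) ^ 2) :=
    Ex_nonneg hμ fun x => sq_nonneg _
  simp only [sub_self, ne_eq, OfNat.ofNat_ne_zero, not_false_eq_true, zero_pow, mul_zero,
    sum_const_zero, zero_add] at h
  linarith

omit [DecidableEq A] [Fintype A'] in
lemma pmu_nonneg {μ : A → ℝ} (hμ : ∀ a, 0 ≤ μ a) (F : (J → A) → A') (a : A') : 0 ≤ pmu μ F a :=
  Ex_nonneg hμ fun x => by split_ifs <;> norm_num

end Vale.Agent.P047
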